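import Vale.Agent.P011.ExtF.Kill
import Vale.Agent.P011.RP.Dense
import Vale.Agent.P011.RP.Choice

/-!
The extension theorem for the completions at the real places of the fixed field that do not
split.
-/

open Module Matrix
open scoped ComplexOrder

set_option linter.unusedSectionVars false

namespace Vale.Agent.P011.ExtF

open Vale.Agent.P011.RP

variable {n : ℕ}

theorem exists_root {P : Matrix (Fin n) (Fin n) ℂ} (hP : P.PosDef) :
    ∃ C B : Matrix (Fin n) (Fin n) ℂ, P = C * Cᴴ ∧ C * B = 1 ∧ B * C = 1 := by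
  have hH : P.IsHermitian := hP.isHermitian
  obtain ⟨V, hV⟩ : ∃ V : Matrix (Fin n) (Fin n) ℂ, V = (hH.eigenvectorUnitary : Matrix _ _ ℂ) :=
    ⟨_, rfl⟩
  have hV1 : Vᴴ * V = 1 := by
    rw [hV]; exact Matrix.mem_unitaryGroup_iff'.mp hH.eigenvectorUnitary.2
  have hV2 : V * Vᴴ = 1 := mul_eq_one_comm.mp hV1
  have hspec : P = V * Matrix.diagonal (fun i => (hH.eigenvalues i : ℂ)) * Vᴴ := by
    rw [hV]; exact hH.spectral_theorem
  have hpos : ∀ i, 0 < hH.eigenvalues i := fun i => hP.eigenvalues_pos i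
  let r : Fin n → ℝ := fun i => Real.sqrt (hH.eigenvalues i)
  have hr : ∀ i, 0 < r i := fun i => Real.sqrt_pos.mpr (hpos i)
  have hrr : ∀ i, (r i : ℂ) * (r i : ℂ) = (hH.eigenvalues i : ℂ) := by
    intro i
    rw [← Complex.ofReal_mul, Real.mul_self_sqrt (hpos i).le]
  have h1 : (V * Matrix.diagonal (fun i => (r i : ℂ))) *
      (Matrix.diagonal (fun i => ((r i)⁻¹ : ℂ)) * Vᴴ) = 1 := by
    calc (V * Matrix.diagonal (fun i => (r i : ℂ))) *
          (Matrix.diagonal (fun i => ((r i)⁻¹ : ℂ)) * Vᴴ)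
        = V * (Matrix.diagonal (fun i => (r i : ℂ)) *
            Matrix.diagonal (fun i => ((r i)⁻¹ : ℂ))) * Vᴴ := by simp only [mul_assoc]
      _ = V * Matrix.diagonal (fun _ => (1 : ℂ)) * Vᴴ := by
          rw [Matrix.diagonal_mul_diagonal]
          congr 2
          exact congrArg Matrix.diagonal (funext fun i =>
            mul_inv_cancel₀ (by exact_mod_cast (hr i).ne'))
      _ = 1 := by rw [Matrix.diagonal_one, mul_one, hV2]
  refine ⟨V * Matrix.diagonal (fun i => (r i : ℂ)),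
    Matrix.diagonal (fun i => ((r i)⁻¹ : ℂ)) * Vᴴ, ?_, h1, mul_eq_one_comm.mp h1⟩
  rw [conjTranspose_mul, Matrix.diagonal_conjTranspose]
  have h2 : (star fun i => (r i : ℂ)) = fun i => (r i : ℂ) := by
    funext i
    exact Complex.conj_ofReal _
  rw [h2]
  calc P = V * Matrix.diagonal (fun i => (r i : ℂ) * (r i : ℂ)) * Vᴴ := by
        rw [hspec]
        congr 2
        exact congrArg Matrix.diagonal (funext fun i => (hrr i).symm)
    _ = _ := by rw [← Matrix.diagonal_mul_diagonal]; simp only [mul_assoc]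

section

variable {K D : Type} [Field K] [StarRing K] [DivisionRing D] [StarRing D] [Algebra K D]

/-- Normalisation of a positive place. -/
theorem exists_norm (R : RData K D n) (hA : R.A.PosDef) :
    ∃ (g : D →+* Matrix (Fin n) (Fin n) ℂ) (C B : Matrix (Fin n) (Fin n) ℂ),
      C * B = 1 ∧ B * C = 1 ∧ R.A = C * Cᴴ ∧ (∀ x, g x = B * R.f x * C) ∧
      (∀ x, g (star x) = (g x)ᴴ) := by
  obtain ⟨C, B, hP, hCB, hBC⟩ := exists_root hA
  let g : D →+* Matrix (Fin n) (Fin n) ℂ :=
    { toFun := fun x => B * R.f x * C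
      map_one' := by rw [map_one, mul_one, hBC]
      map_zero' := by rw [map_zero, mul_zero, zero_mul]
      map_add' := fun x y => by rw [map_add, mul_add, add_mul]
      map_mul' := fun x y => by
        rw [map_mul]
        calc B * (R.f x * R.f y) * C = B * R.f x * (C * B) * R.f y * C := by
              rw [hCB, mul_one]; simp only [mul_assoc]
          _ = _ := by simp only [mul_assoc] }
  refine ⟨g, C, B, hCB, hBC, hP, fun x => rfl, fun x => ?_⟩
  change B * R.f (star x) * C = (B * R.f x * C)ᴴ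
  have h1 := R.star_f x
  rw [hP] at h1
  have h2 : Cᴴ * Bᴴ = 1 := by rw [← conjTranspose_mul, hBC, conjTranspose_one]
  calc B * R.f (star x) * C = B * R.f (star x) * C * (Cᴴ * Bᴴ) := by rw [h2, mul_one]
    _ = B * (R.f (star x) * (C * Cᴴ)) * Bᴴ := by simp only [mul_assoc]
    _ = B * (C * Cᴴ * (R.f x)ᴴ) * Bᴴ := by rw [h1]
    _ = (B * C) * (Cᴴ * (R.f x)ᴴ * Bᴴ) := by simp only [mul_assoc]
    _ = (B * R.f x * C)ᴴ := by
        rw [hBC, one_mul, conjTranspose_mul, conjTranspose_mul, mul_assoc]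

/-- positivity in the two normalisations -/
theorem acc_iff {R : RData K D n} {g : D →+* Matrix (Fin n) (Fin n) ℂ}
    {C B : Matrix (Fin n) (Fin n) ℂ} (hCB : C * B = 1) (hBC : B * C = 1) (hP : R.A = C * Cᴴ)
    (hg : ∀ x, g x = B * R.f x * C) (hgs : ∀ x, g (star x) = (g x)ᴴ) (z : D) :
    Acc (g z) ↔ R.PosAt (z + star z) := by
  unfold Acc RData.PosAt
  have hCu : IsUnit C := ⟨⟨C, B, hCB, hBC⟩, rfl⟩
  have h1 : R.f (z + star z) * R.A = C * (g z + (g z)ᴴ) * Cᴴ := by
    rw [← hgs, ← map_add, hg, hP]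
    calc R.f (z + star z) * (C * Cᴴ) = (C * B) * R.f (z + star z) * (C * Cᴴ) := by
          rw [hCB, one_mul]
      _ = _ := by simp only [mul_assoc]
  rw [h1]
  exact (Matrix.IsUnit.posDef_star_right_conjugate_iff hCu).symm

/-- a bound for the products of the entries -/
theorem exists_bound {ι : Type} [Fintype ι] (B C : ι → Matrix (Fin n) (Fin n) ℂ) :
    ∃ M : ℝ, 0 < M ∧ ∀ i a b c e, ‖B i a b‖ * ‖C i c e‖ ≤ M := by
  obtain ⟨M, hM⟩ := Set.Finite.bddAbove (Set.finite_range
    fun x : ι × Fin n × Fin n × Fin n × Fin n => ‖B x.1 x.2.1 x.2.2.1‖ *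
      ‖C x.1 x.2.2.2.1 x.2.2.2.2‖)
  refine ⟨max M 1, lt_max_of_lt_right one_pos, fun i a b c e => ?_⟩
  exact (hM ⟨(i, a, b, c, e), rfl⟩).trans (le_max_left _ _)

/-- transport of an approximation -/
theorem near_transport {X Y B C : Matrix (Fin n) (Fin n) ℂ} {M ε : ℝ} (hM0 : 0 < M)
    (hM : ∀ a b c e, ‖B a b‖ * ‖C c e‖ ≤ M) (hε : 0 < ε)
    (hx : ∀ a b, ‖Y a b - X a b‖ < ε / (n * n * M + 1)) (a b : Fin n) :
    ‖(B * (Y - X) * C) a b‖ < ε := by
  rw [Matrix.mul_apply]
  have h3 : ∀ c ∈ (Finset.univ : Finset (Fin n)),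
      ‖(B * (Y - X)) a c * C c b‖ ≤ n * (M * (ε / (n * n * M + 1))) := by
    intro c _
    rw [Matrix.mul_apply, Finset.sum_mul]
    refine (norm_sum_le _ _).trans ?_
    have h10 : ∀ e ∈ (Finset.univ : Finset (Fin n)),
        ‖B a e * (Y - X) e c * C c b‖ ≤ M * (ε / (n * n * M + 1)) := by
      intro e _
      rw [norm_mul, norm_mul, Matrix.sub_apply]
      calc ‖B a e‖ * ‖Y e c - X e c‖ * ‖C c b‖
          = (‖B a e‖ * ‖C c b‖) * ‖Y e c - X e c‖ := by ring
        _ ≤ M * (ε / (n * n * M + 1)) :=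
            mul_le_mul (hM a e c b) (hx e c).le (norm_nonneg _) hM0.le
    refine (Finset.sum_le_sum h10).trans ?_
    rw [Finset.sum_const, Finset.card_univ, Fintype.card_fin, nsmul_eq_mul]
  refine (norm_sum_le _ _).trans_lt ?_
  refine (Finset.sum_le_sum h3).trans_lt ?_
  rw [Finset.sum_const, Finset.card_univ, Fintype.card_fin, nsmul_eq_mul]
  have h4 : (n : ℝ) * (n * (M * (ε / (n * n * M + 1)))) =
      ε * ((n * n * M) / (n * n * M + 1)) := by field_simp
  rw [h4]
  have h5 : (n * n * M) / (n * n * M + 1) < 1 := by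
    rw [div_lt_one (by positivity)]
    linarith
  calc ε * ((n * n * M) / (n * n * M + 1)) < ε * 1 := mul_lt_mul_of_pos_left h5 hε
    _ = ε := mul_one _

/-- The family of normalised places. -/
theorem exists_fam {ι : Type} [Fintype ι] (R : ι → RData K D n) (hd : Dense R)
    (hA : ∀ i, (R i).A.PosDef) :
    ∃ G : Fam D ι n, (∀ i z, Acc (G.g i z) ↔ (R i).PosAt (z + star z)) ∧
      ∀ i k, G.g i (algebraMap K D k) = ((R i).s k) • (1 : Matrix (Fin n) (Fin n) ℂ) := by
  classical
  choose g C B hCB hBC hP hg hgs using fun i => exists_norm (R i) (hA i)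
  obtain ⟨M, hM0, hM⟩ := exists_bound B C
  have hdense : ∀ (X : ι → Matrix (Fin n) (Fin n) ℂ) (ε : ℝ), 0 < ε →
      ∃ x : D, ∀ i a b, ‖g i x a b - X i a b‖ < ε := by
    intro X ε hε
    obtain ⟨x, hx⟩ := hd (fun i => C i * X i * B i) (ε / (n * n * M + 1)) (by positivity)
    refine ⟨x, fun i a b => ?_⟩
    have h1 : g i x - X i = B i * ((R i).f x - C i * X i * B i) * C i := by
      rw [mul_sub, sub_mul, hg]
      congr 1
      calc X i = (B i * C i) * X i * (B i * C i) := by rw [hBC, one_mul, mul_one]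
        _ = _ := by simp only [mul_assoc]
    have h2 : g i x a b - X i a b = (B i * ((R i).f x - C i * X i * B i) * C i) a b := by
      rw [← h1]; rfl
    rw [h2]
    exact near_transport hM0 (hM i) hε (hx i) a b
  refine ⟨{ g := g, g_star := hgs, dense := hdense }, fun i z => ?_, fun i k => ?_⟩
  · exact acc_iff (hCB i) (hBC i) (hP i) (hg i) (hgs i) z
  · change g i (algebraMap K D k) = _
    rw [hg, (R i).hf, Matrix.scalar_apply, ← Matrix.smul_one_eq_diagonal, mul_smul_comm,
      mul_one, smul_mul_assoc, hBC]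

end

section main

variable {K D : Type} [Field K] [NumberField K] [StarRing K] [DivisionRing D] [StarRing D]
  [Algebra K D] [StarModule K D] [FiniteDimensional K D] [Algebra.IsCentral K D]
  {ι : Type} [Fintype ι] [Nonempty ι] {A : Type} [CommGroup A]

/-- the family, the character data and the central skew element -/
theorem exists_data (hK : ∃ k : K, star k ≠ k) (hn : 0 < n) (R : ι → RData K D n)
    (hd : Dense R) (hA : ∀ i, (R i).A.PosDef) (psi chi : D → A)
    (hconj : ∀ c z : D, c ≠ 0 → (∀ i, (R i).PosAt (z + star z)) →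
      psi (c * z * star c) = psi z)
    (hstar : ∀ z : D, (∀ i, (R i).PosAt (z + star z)) → psi (star z) = (psi z)⁻¹)
    (hB : ∀ z z' r : D, (∀ i, (R i).PosAt (z + star z)) → (∀ i, (R i).PosAt (z' + star z')) →
      (∀ i, (R i).PosAt (z * r + star (z * r))) → (∀ i, (R i).PosAt (z' * r + star (z' * r))) →
      psi (z * r) * (psi z)⁻¹ = psi (z' * r) * (psi z')⁻¹)
    (hmul : ∀ s t : D, s * star s = 1 → t * star t = 1 → chi (s * t) = chi s * chi t)
    (hcay : ∀ s : D, s * star s = 1 → 1 + s ≠ 0 → psi ((1 + s)⁻¹) = chi (-s)) :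
    ∃ (G : Fam D ι n) (C : Chi G A), Nonempty (Kap G) ∧ C.psi = psi ∧ C.chi = chi ∧
      ∀ z, z ∈ G.X ↔ ∀ i, (R i).PosAt (z + star z) := by
  have hchar : CharZero D := charZero_of_injective_algebraMap (algebraMap K D).injective
  obtain ⟨G, hG, hGk⟩ := exists_fam R hd hA
  have hne : Nonempty (Fin n) := ⟨⟨0, hn⟩⟩
  have hX : ∀ z, z ∈ G.X ↔ ∀ i, (R i).PosAt (z + star z) := by
    intro z
    constructor
    · exact fun h i => (hG i z).mp (h.2 i)
    · intro h
      refine ⟨?_, fun i => (hG i z).mpr (h i)⟩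
      rintro rfl
      obtain ⟨i⟩ := ‹Nonempty ι›
      have h1 := ((hG i 0).mpr (h i)).isUnit
      rw [map_zero] at h1
      exact not_isUnit_zero h1
  -- the skew element
  obtain ⟨k, hk⟩ := hK
  obtain ⟨l, hld⟩ : ∃ l, l = k - star k := ⟨_, rfl⟩
  have hl0 : l ≠ 0 := by rw [hld]; exact sub_ne_zero.mpr (Ne.symm hk)
  have hls : star l = -l := by rw [hld, star_sub, star_star, neg_sub]
  have hκ : star (algebraMap K D l) = -algebraMap K D l := by
    rw [← algebraMap_star_comm, hls, map_neg]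
  have hκ0 : algebraMap K D l ≠ 0 := (map_ne_zero _).mpr hl0
  obtain ⟨h1, h2⟩ := Fam.skew_ne hκ
  have hcomm : (1 + algebraMap K D l) * (1 - algebraMap K D l)⁻¹ =
      (1 - algebraMap K D l)⁻¹ * (1 + algebraMap K D l) := by
    have hc : Commute (1 + algebraMap K D l) (1 - algebraMap K D l) := by
      have h3 : Commute (algebraMap K D l) (1 - algebraMap K D l) :=
        (Commute.one_right _).sub_right (Commute.refl _)
      exact (Commute.one_left _).add_left h3
    exact (hc.inv_right₀).eq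
  have hτ1 : Fam.cay (algebraMap K D l) ≠ 1 := by
    intro h
    unfold Fam.cay at h
    have h3 := congrArg (fun x => (1 - algebraMap K D l) * x) h
    simp only [← mul_assoc, mul_inv_cancel₀ h1, one_mul, mul_one] at h3
    have h4 : algebraMap K D l + algebraMap K D l = 0 := by
      have h5 := sub_eq_zero.mpr h3
      rw [← h5]; abel
    rw [← two_mul] at h4
    rcases mul_eq_zero.mp h4 with h5 | h5
    · exact two_ne_zero h5
    · exact hκ0 h5
  have hτ2 : Fam.cay (algebraMap K D l) ≠ -1 := by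
    intro h
    unfold Fam.cay at h
    have h3 := congrArg (fun x => (1 - algebraMap K D l) * x) h
    simp only [← mul_assoc, mul_inv_cancel₀ h1, one_mul, mul_neg, mul_one] at h3
    have h4 : (2 : D) = 0 := by
      have h5 := sub_eq_zero.mpr h3
      rw [← h5, ← one_add_one_eq_two]; abel
    exact two_ne_zero h4
  let C : Chi G A :=
    { psi := psi
      chi := chi
      psi_conj := fun c z hc hz => hconj c z hc ((hX z).mp hz)
      psi_star := fun z hz => hstar z ((hX z).mp hz)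
      psi_B := fun z z' r hz hz' h h' => hB z z' r ((hX _).mp hz) ((hX _).mp hz')
        ((hX _).mp h) ((hX _).mp h')
      chi_mul := hmul
      chi_psi := hcay
      tau := Fam.cay (algebraMap K D l)
      tau_unit := Fam.cay_unit hκ
      tau_ne := hτ1
      tau_ne' := hτ2 }
  have hplace : ∀ i, ∃ r : ℝ,
      G.g i (algebraMap K D l) = ((r : ℂ) * Complex.I) • (1 : Matrix (Fin n) (Fin n) ℂ) := by
    intro i
    have h3 := (R i).hs l
    rw [hls, map_neg] at h3
    have h4 : ((R i).s l).re = 0 := by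
      have h5 := congrArg Complex.re h3
      rw [Complex.neg_re, Complex.star_def, Complex.conj_re] at h5
      linarith
    refine ⟨((R i).s l).im, ?_⟩
    rw [hGk]
    congr 1
    apply Complex.ext
    · rw [h4]; simp
    · simp
  exact ⟨G, C, ⟨Kap.mk (algebraMap K D l) hκ0 hκ (fun x => Algebra.commutes l x) hplace⟩,
    rfl, rfl, hX⟩

/-- **Extension to a homomorphism.** -/
theorem exists_hom (hK : ∃ k : K, star k ≠ k) (hn : 0 < n) (R : ι → RData K D n)
    (hd : Dense R) (hA : ∀ i, (R i).A.PosDef) (psi chi : D → A)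
    (hconj : ∀ c z : D, c ≠ 0 → (∀ i, (R i).PosAt (z + star z)) →
      psi (c * z * star c) = psi z)
    (hstar : ∀ z : D, (∀ i, (R i).PosAt (z + star z)) → psi (star z) = (psi z)⁻¹)
    (hB : ∀ z z' r : D, (∀ i, (R i).PosAt (z + star z)) → (∀ i, (R i).PosAt (z' + star z')) →
      (∀ i, (R i).PosAt (z * r + star (z * r))) → (∀ i, (R i).PosAt (z' * r + star (z' * r))) →
      psi (z * r) * (psi z)⁻¹ = psi (z' * r) * (psi z')⁻¹)
    (hmul : ∀ s t : D, s * star s = 1 → t * star t = 1 → chi (s * t) = chi s * chi t)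
    (hcay : ∀ s : D, s * star s = 1 → 1 + s ≠ 0 → psi ((1 + s)⁻¹) = chi (-s)) :
    ∃ F0 : D → A, (∀ x y, x ≠ 0 → y ≠ 0 → F0 (x * y) = F0 x * F0 y) ∧
      (∀ z, (∀ i, (R i).PosAt (z + star z)) → F0 z = psi z * (psi 1)⁻¹) ∧
      (∀ t, t * star t = 1 → F0 t = (chi t * chi t)⁻¹) ∧
      (∀ c, c ≠ 0 → F0 (star c) = (F0 c)⁻¹) := by
  have hchar : CharZero D := charZero_of_injective_algebraMap (algebraMap K D).injective
  obtain ⟨G, C, -, hpsi, hchi, hX⟩ :=
    exists_data hK hn R hd hA psi chi hconj hstar hB hmul hcay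
  refine ⟨C.F0, fun x y hx hy => C.F0_mul hn hx hy, fun z hz => ?_, fun t ht => ?_,
    fun c hc => C.F0_star hn hc⟩
  · rw [C.F0_X ((hX z).mpr hz), Chi.lam, hpsi]
  · rw [C.F0_unit ht, Chi.sq, hchi]

/-- **The character is trivial on elements of reduced norm one.** -/
theorem chi_kill (hK : ∃ k : K, star k ≠ k) (hn : 0 < n) (hdeg : finrank K D = n ^ 2)
    (R : ι → RData K D n)
    (hd : Dense R) (hA : ∀ i, (R i).A.PosDef) (psi chi : D → A)
    (hconj : ∀ c z : D, c ≠ 0 → (∀ i, (R i).PosAt (z + star z)) →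
      psi (c * z * star c) = psi z)
    (hstar : ∀ z : D, (∀ i, (R i).PosAt (z + star z)) → psi (star z) = (psi z)⁻¹)
    (hB : ∀ z z' r : D, (∀ i, (R i).PosAt (z + star z)) → (∀ i, (R i).PosAt (z' + star z')) →
      (∀ i, (R i).PosAt (z * r + star (z * r))) → (∀ i, (R i).PosAt (z' * r + star (z' * r))) →
      psi (z * r) * (psi z)⁻¹ = psi (z' * r) * (psi z')⁻¹)
    (hmul : ∀ s t : D, s * star s = 1 → t * star t = 1 → chi (s * t) = chi s * chi t)
    (hcay : ∀ s : D, s * star s = 1 → 1 + s ≠ 0 → psi ((1 + s)⁻¹) = chi (-s))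
    (hsym : ∀ f : D, star f = f → (∀ i, (R i).PosAt (f + star f)) → psi f = psi 1)
    {F : Type} [Field F] [Algebra K F] (f : D →ₐ[K] Matrix (Fin n) (Fin n) F) {t : D}
    (ht : t * star t = 1) (hdet : (f t).det = 1) : chi t = 1 := by
  have hchar : CharZero D := charZero_of_injective_algebraMap (algebraMap K D).injective
  have hfin : FiniteDimensional ℚ D := FiniteDimensional.trans ℚ K D
  obtain ⟨G, C, ⟨κ⟩, hpsi, hchi, hX⟩ :=
    exists_data hK hn R hd hA psi chi hconj hstar hB hmul hcay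
  have h1 := C.chi_eq_one (fun f hf hs => by rw [hpsi]; exact hsym f hs ((hX f).mp hf)) hn κ hdeg
    hK f ht hdet
  rwa [hchi] at h1

end main

end Vale.Agent.P011.ExtF
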