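import Vale.Agent.P011.RP.Pos

/-!
Complex matrices whose hermitian part is positive definite.
-/

open Module Matrix
open scoped ComplexOrder

namespace Vale.Agent.P011.ExtF

variable {n : ℕ}

/-- The hermitian part of the matrix is positive definite. -/
def Acc (M : Matrix (Fin n) (Fin n) ℂ) : Prop := (M + Mᴴ).PosDef

theorem Acc.tr {M : Matrix (Fin n) (Fin n) ℂ} (h : Acc M) : Acc Mᴴ := by
  unfold Acc at *
  rwa [conjTranspose_conjTranspose, add_comm]

theorem Acc.add {M N : Matrix (Fin n) (Fin n) ℂ} (h : Acc M) (h' : Acc N) : Acc (M + N) := by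
  unfold Acc at *
  have h1 := h.add h'
  rwa [conjTranspose_add, show M + N + (Mᴴ + Nᴴ) = M + Mᴴ + (N + Nᴴ) by abel]

theorem Acc.smul {M : Matrix (Fin n) (Fin n) ℂ} (h : Acc M) {r : ℝ} (hr : 0 < r) :
    Acc ((r : ℂ) • M) := by
  unfold Acc at *
  have h1 : (0 : ℂ) < (r : ℂ) := by exact_mod_cast hr
  have h2 := h.smul h1
  rwa [conjTranspose_smul, Complex.star_def, Complex.conj_ofReal, ← smul_add]

/-- complex multiples of positive definite matrices -/
theorem acc_smul_posDef {P : Matrix (Fin n) (Fin n) ℂ} (h : P.PosDef) {c : ℂ} (hc : 0 < c.re) :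
    Acc (c • P) := by
  unfold Acc
  have h1 : (0 : ℂ) < ((2 * c.re : ℝ) : ℂ) := by exact_mod_cast (by linarith : 0 < 2 * c.re)
  have h2 := h.smul h1
  have h3 : c • P + (c • P)ᴴ = ((2 * c.re : ℝ) : ℂ) • P := by
    rw [conjTranspose_smul, h.isHermitian.eq, ← add_smul]
    congr 1
    rw [Complex.star_def, Complex.add_conj]
  rwa [h3]

theorem acc_posDef {P : Matrix (Fin n) (Fin n) ℂ} (h : P.PosDef) : Acc P := by
  have h1 := acc_smul_posDef h (c := 1) (by norm_num)
  rwa [one_smul] at h1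

theorem acc_one : Acc (1 : Matrix (Fin n) (Fin n) ℂ) := acc_posDef Matrix.PosDef.one

theorem Acc.conj {M C : Matrix (Fin n) (Fin n) ℂ} (h : Acc M) (hC : IsUnit C) :
    Acc (C * M * Cᴴ) := by
  unfold Acc at *
  have h1 : C * M * Cᴴ + (C * M * Cᴴ)ᴴ = C * (M + Mᴴ) * Cᴴ := by
    rw [conjTranspose_mul, conjTranspose_mul, conjTranspose_conjTranspose]
    noncomm_ring
  rw [h1]
  exact (Matrix.IsUnit.posDef_star_right_conjugate_iff hC).mpr h

theorem Acc.isUnit {M : Matrix (Fin n) (Fin n) ℂ} (h : Acc M) : IsUnit M := by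
  rw [Matrix.isUnit_iff_isUnit_det, isUnit_iff_ne_zero]
  intro h0
  obtain ⟨v, hv, hv0⟩ := Matrix.exists_mulVec_eq_zero_iff.mpr h0
  have h1 : 0 < star v ⬝ᵥ ((M + Mᴴ) *ᵥ v) := Matrix.PosDef.dotProduct_mulVec_pos h hv
  have h2 : star v ⬝ᵥ (Mᴴ *ᵥ v) = 0 := by
    rw [Matrix.dotProduct_mulVec, ← Matrix.star_mulVec, hv0, star_zero, zero_dotProduct]
  rw [Matrix.add_mulVec, dotProduct_add, hv0, dotProduct_zero, h2, add_zero] at h1
  exact lt_irrefl _ h1

theorem Acc.inv {M N : Matrix (Fin n) (Fin n) ℂ} (h : Acc M) (hMN : M * N = 1) : Acc N := by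
  have hNM : N * M = 1 := mul_eq_one_comm.mp hMN
  have hN : IsUnit N := ⟨⟨N, M, hNM, hMN⟩, rfl⟩
  have h1 := h.tr.conj hN
  have h2 : N * Mᴴ * Nᴴ = N := by
    rw [mul_assoc, ← conjTranspose_mul, hNM, conjTranspose_one, mul_one]
  rwa [h2] at h1

/-- A unitary matrix without the eigenvalue `-1`. -/
theorem acc_one_add {W : Matrix (Fin n) (Fin n) ℂ} (hW : W * Wᴴ = 1) (h : IsUnit (1 + W)) :
    Acc (1 + W) := by
  unfold Acc
  have h1 : 1 + W + (1 + W)ᴴ = (1 + W) * 1 * (1 + W)ᴴ := by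
    rw [conjTranspose_add, conjTranspose_one, mul_one, add_mul, mul_add, mul_add, hW]
    simp only [one_mul, mul_one]
    abel
  rw [h1]
  exact (Matrix.IsUnit.posDef_star_right_conjugate_iff h).mpr Matrix.PosDef.one

theorem Acc.near {M : Matrix (Fin n) (Fin n) ℂ} (h : Acc M) :
    ∃ ε : ℝ, 0 < ε ∧ ∀ N : Matrix (Fin n) (Fin n) ℂ, (∀ a b, ‖N a b - M a b‖ < ε) → Acc N := by
  obtain ⟨ε, hε, h1⟩ := RP.posDef_near h
  refine ⟨ε / 2, half_pos hε, fun N hN => ?_⟩
  apply h1
  · rw [Matrix.IsHermitian, conjTranspose_add, conjTranspose_conjTranspose, add_comm]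
  · intro a b
    have h2 := hN a b
    have h3 := hN b a
    have h4 : (N + Nᴴ) a b - (M + Mᴴ) a b = (N a b - M a b) + star (N b a - M b a) := by
      rw [Matrix.add_apply, Matrix.add_apply, Matrix.conjTranspose_apply,
        Matrix.conjTranspose_apply, star_sub]
      ring
    rw [h4]
    have h5 := norm_add_le (N a b - M a b) (star (N b a - M b a))
    rw [norm_star] at h5
    linarith

/-- The condition is open along a continuous family. -/
theorem acc_eventually {T : Type*} [TopologicalSpace T] {F : T → Matrix (Fin n) (Fin n) ℂ}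
    {t0 : T} (hF : ∀ a b, ContinuousAt (fun t => F t a b) t0) (h : Acc (F t0)) :
    ∀ᶠ t in nhds t0, Acc (F t) := by
  obtain ⟨ε, hε, h1⟩ := h.near
  have h2 : ∀ᶠ t in nhds t0, ∀ a b, ‖F t a b - F t0 a b‖ < ε := by
    rw [Filter.eventually_all]
    intro a
    rw [Filter.eventually_all]
    intro b
    have h3 := Metric.tendsto_nhds.mp (hF a b) ε hε
    filter_upwards [h3] with t ht
    rwa [dist_eq_norm] at ht
  filter_upwards [h2] with t ht
  exact h1 _ ht

end Vale.Agent.P011.ExtF
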