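import Vale.Agent.P011.ExtF.Acc

/-!
Polar decomposition of complex matrices and Cayley parameters.
-/

open Module Matrix
open scoped ComplexOrder

namespace Vale.Agent.P011.ExtF

variable {n : ℕ}

/-- Polar decomposition of an invertible matrix. -/
theorem exists_polar {Y : Matrix (Fin n) (Fin n) ℂ} (hY : IsUnit Y) :
    ∃ U P : Matrix (Fin n) (Fin n) ℂ, U * Uᴴ = 1 ∧ P.PosDef ∧ Y = U * P := by
  have hP : (Yᴴ * Y).PosDef := by
    have h1 := (Matrix.IsUnit.posDef_star_left_conjugate_iff hY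
      (x := (1 : Matrix (Fin n) (Fin n) ℂ))).mpr Matrix.PosDef.one
    rwa [mul_one] at h1
  have hH : (Yᴴ * Y).IsHermitian := hP.isHermitian
  obtain ⟨V, hV⟩ : ∃ V : Matrix (Fin n) (Fin n) ℂ, V = (hH.eigenvectorUnitary : Matrix _ _ ℂ) :=
    ⟨_, rfl⟩
  have hV1 : Vᴴ * V = 1 := by
    rw [hV]; exact Matrix.mem_unitaryGroup_iff'.mp hH.eigenvectorUnitary.2
  have hV2 : V * Vᴴ = 1 := mul_eq_one_comm.mp hV1
  have hVu : IsUnit V := ⟨⟨V, Vᴴ, hV2, hV1⟩, rfl⟩
  have hspec : Yᴴ * Y = V * Matrix.diagonal (fun i => (hH.eigenvalues i : ℂ)) * Vᴴ := by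
    rw [hV]; exact hH.spectral_theorem
  have hpos : ∀ i, 0 < hH.eigenvalues i := fun i => hP.eigenvalues_pos i
  let r : Fin n → ℝ := fun i => Real.sqrt (hH.eigenvalues i)
  have hr : ∀ i, 0 < r i := fun i => Real.sqrt_pos.mpr (hpos i)
  have hrr : ∀ i, (r i : ℂ) * (r i : ℂ) = (hH.eigenvalues i : ℂ) := by
    intro i
    rw [← Complex.ofReal_mul, Real.mul_self_sqrt (hpos i).le]
  obtain ⟨P, hPd⟩ : ∃ P : Matrix (Fin n) (Fin n) ℂ,
      P = V * Matrix.diagonal (fun i => (r i : ℂ)) * Vᴴ := ⟨_, rfl⟩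
  obtain ⟨Q, hQd⟩ : ∃ Q : Matrix (Fin n) (Fin n) ℂ,
      Q = V * Matrix.diagonal (fun i => ((r i)⁻¹ : ℂ)) * Vᴴ := ⟨_, rfl⟩
  have hmul : ∀ d e : Fin n → ℂ, (V * Matrix.diagonal d * Vᴴ) * (V * Matrix.diagonal e * Vᴴ) =
      V * Matrix.diagonal (fun i => d i * e i) * Vᴴ := by
    intro d e
    calc (V * Matrix.diagonal d * Vᴴ) * (V * Matrix.diagonal e * Vᴴ)
        = V * Matrix.diagonal d * (Vᴴ * V) * Matrix.diagonal e * Vᴴ := by noncomm_ring
      _ = V * (Matrix.diagonal d * Matrix.diagonal e) * Vᴴ := by rw [hV1]; noncomm_ring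
      _ = _ := by rw [Matrix.diagonal_mul_diagonal]
  have hPP : P * P = Yᴴ * Y := by
    rw [hPd, hmul, hspec]
    congr 2
    exact congrArg Matrix.diagonal (funext hrr)
  have hPQ : P * Q = 1 := by
    rw [hPd, hQd, hmul]
    have h1 : (fun i => (r i : ℂ) * ((r i)⁻¹ : ℂ)) = fun _ => (1 : ℂ) := by
      funext i
      exact mul_inv_cancel₀ (by exact_mod_cast (hr i).ne')
    rw [h1, Matrix.diagonal_one, mul_one, hV2]
  have hQP : Q * P = 1 := mul_eq_one_comm.mp hPQ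
  have hPpos : P.PosDef := by
    rw [hPd]
    refine (Matrix.IsUnit.posDef_star_right_conjugate_iff hVu).mpr ?_
    apply Matrix.PosDef.diagonal
    intro i
    exact_mod_cast hr i
  have hQH : Qᴴ = Q := by
    have h1 : Qᴴ * P = 1 := by
      rw [← hPpos.isHermitian.eq, ← conjTranspose_mul, hPQ, conjTranspose_one]
    calc Qᴴ = Qᴴ * (P * Q) := by rw [hPQ, mul_one]
      _ = Q := by rw [← mul_assoc, h1, one_mul]
  refine ⟨Y * Q, P, ?_, hPpos, by rw [mul_assoc, hQP, mul_one]⟩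
  rw [mul_eq_one_comm, conjTranspose_mul, hQH]
  calc Q * Yᴴ * (Y * Q) = Q * (Yᴴ * Y) * Q := by noncomm_ring
    _ = (Q * P) * (P * Q) := by rw [← hPP]; noncomm_ring
    _ = 1 := by rw [hPQ, hQP, one_mul]

/-- the points `(k + i) / (k - i)` of the unit circle -/
noncomputable def cir (k : ℕ) : ℂ := ((k : ℂ) + 2 + Complex.I) / ((k : ℂ) + 2 - Complex.I)

theorem cir_den (k : ℕ) : ((k : ℂ) + 2 - Complex.I) ≠ 0 := by
  intro h
  have h1 := congrArg Complex.im h
  simp at h1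

theorem cir_num (k : ℕ) : ((k : ℂ) + 2 + Complex.I) ≠ 0 := by
  intro h
  have h1 := congrArg Complex.im h
  simp at h1

theorem cir_ne (k : ℕ) : cir k ≠ 0 := div_ne_zero (cir_num k) (cir_den k)

theorem cir_star (k : ℕ) : star (cir k) = (cir k)⁻¹ := by
  unfold cir
  rw [star_div₀, inv_div]
  simp only [star_add, star_sub, star_natCast, star_ofNat, Complex.star_def, Complex.conj_I,
    sub_neg_eq_add]
  rfl

theorem cir_re (k : ℕ) : 0 < (cir k)⁻¹.re := by
  have h1 : (cir k)⁻¹ = (((((k : ℝ) + 2) ^ 2 - 1 : ℝ) : ℂ) + ((-(2 * ((k : ℝ) + 2)) : ℝ) : ℂ) *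
      Complex.I) / (((((k : ℝ) + 2) ^ 2 + 1 : ℝ)) : ℂ) := by
    unfold cir
    rw [inv_div, div_eq_div_iff (cir_num k) (by
      have : (0 : ℝ) < ((k : ℝ) + 2) ^ 2 + 1 := by positivity
      exact_mod_cast this.ne')]
    push_cast
    linear_combination (2 * ((k : ℂ) + 2)) * Complex.I_sq
  rw [h1, Complex.div_ofReal_re]
  apply div_pos
  · simp only [Complex.add_re, Complex.ofReal_re, Complex.mul_re, Complex.I_re, mul_zero,
      Complex.ofReal_im, Complex.I_im, mul_one, sub_zero, add_zero]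
    have : (0 : ℝ) ≤ (k : ℝ) := Nat.cast_nonneg k
    nlinarith
  · positivity

theorem cir_inj : Function.Injective fun k => -(cir k)⁻¹ := by
  intro k l h
  have h1 : cir k = cir l := inv_injective (neg_injective h)
  unfold cir at h1
  rw [div_eq_div_iff (cir_den k) (cir_den l)] at h1
  have h2 : ((k : ℂ) - (l : ℂ)) * (2 * Complex.I) = 0 := by linear_combination -h1
  rcases mul_eq_zero.mp h2 with h3 | h3
  · exact_mod_cast sub_eq_zero.mp h3
  · simp at h3

/-- A unitary matrix becomes one without eigenvalue `-1` after a small rotation. -/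
theorem exists_rot (U : Matrix (Fin n) (Fin n) ℂ) : ∃ k, IsUnit (1 + cir k • U) := by
  have h1 : (Set.range fun k => -(cir k)⁻¹).Infinite := Set.infinite_range_of_injective cir_inj
  have h2 : {x | U.charpoly.IsRoot x}.Finite :=
    Polynomial.finite_setOfPred_isRoot (Matrix.charpoly_monic U).ne_zero
  obtain ⟨x, ⟨k, rfl⟩, hk⟩ := (h1.sdiff h2).nonempty
  refine ⟨k, ?_⟩
  rw [Matrix.isUnit_iff_isUnit_det, isUnit_iff_ne_zero]
  intro h0
  apply hk
  change U.charpoly.IsRoot _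
  rw [Polynomial.IsRoot.def, Matrix.eval_charpoly]
  have h3 : Matrix.scalar (Fin n) (-(cir k)⁻¹) - U = (-(cir k)⁻¹) • (1 + cir k • U) := by
    rw [smul_add, smul_smul, neg_mul, inv_mul_cancel₀ (cir_ne k), neg_one_smul, sub_eq_add_neg,
      Matrix.scalar_apply, Matrix.smul_one_eq_diagonal]
  rw [h3, Matrix.det_smul, h0, mul_zero]

/-- The Cayley parameter of a unitary matrix which makes the hermitian part positive. -/
theorem exists_skew {Y : Matrix (Fin n) (Fin n) ℂ} (hY : IsUnit Y) :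
    ∃ S : Matrix (Fin n) (Fin n) ℂ, Sᴴ = -S ∧ Acc ((1 - S) * Y * (1 - S)) := by
  obtain ⟨U, P, hU, hP, hYU⟩ := exists_polar hY
  obtain ⟨k, hk⟩ := exists_rot U
  obtain ⟨W, hWd⟩ : ∃ W : Matrix (Fin n) (Fin n) ℂ, W = cir k • U := ⟨_, rfl⟩
  rw [← hWd] at hk
  have hW : W * Wᴴ = 1 := by
    rw [hWd, conjTranspose_smul, smul_mul_smul_comm, hU, cir_star, mul_inv_cancel₀ (cir_ne k),
      one_smul]
  obtain ⟨R, hR1, hR2⟩ : ∃ R, (1 + W) * R = 1 ∧ R * (1 + W) = 1 := by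
    obtain ⟨u, hu⟩ := hk
    exact ⟨((u⁻¹ : (Matrix (Fin n) (Fin n) ℂ)ˣ) : Matrix _ _ ℂ), by rw [← hu, Units.mul_inv],
      by rw [← hu, Units.inv_mul]⟩
  have hcom : W * R = R * W := by
    have h1 : R * (1 + W) * W * R = R * W * (1 + W) * R := by noncomm_ring
    rw [hR2, one_mul, mul_assoc (R * W), hR1, mul_one] at h1
    exact h1
  have hRH : Rᴴ = R * W := by
    have h1 : (1 + W)ᴴ = Wᴴ * (1 + W) := by
      rw [conjTranspose_add, conjTranspose_one, mul_add, mul_one, mul_eq_one_comm.mp hW, add_comm]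
    have h2 : Rᴴ * (Wᴴ * (1 + W)) = 1 := by
      rw [← h1, ← conjTranspose_mul, hR1, conjTranspose_one]
    calc Rᴴ = Rᴴ * (Wᴴ * ((1 + W) * R) * W) := by rw [hR1, mul_one, mul_eq_one_comm.mp hW, mul_one]
      _ = (Rᴴ * (Wᴴ * (1 + W))) * (R * W) := by noncomm_ring
      _ = _ := by rw [h2, one_mul]
  refine ⟨(W - 1) * R, ?_, ?_⟩
  · rw [conjTranspose_mul, conjTranspose_sub, conjTranspose_one, hRH]
    calc R * W * (Wᴴ - 1) = R * (W * Wᴴ) - R * W := by noncomm_ring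
      _ = -((W - 1) * R) := by rw [hW, ← hcom]; noncomm_ring
  · have h1 : (1 : Matrix (Fin n) (Fin n) ℂ) - (W - 1) * R = (2 : ℂ) • R := by
      calc (1 : Matrix (Fin n) (Fin n) ℂ) - (W - 1) * R = (1 + W) * R - (W - 1) * R := by rw [hR1]
        _ = R + R := by noncomm_ring
        _ = _ := by rw [two_smul]
    have hUW : U = (cir k)⁻¹ • W := by rw [hWd, smul_smul, inv_mul_cancel₀ (cir_ne k), one_smul]
    have h2 : (2 : ℂ) • R * Y * (2 : ℂ) • R = (4 * (cir k)⁻¹) • (Rᴴ * P * R) := by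
      rw [hYU, hUW, hRH]
      simp only [smul_mul_assoc, mul_smul_comm, smul_smul]
      congr 1
      · ring
      · noncomm_ring
    rw [h1, h2]
    have hRu : IsUnit R := ⟨⟨R, 1 + W, hR2, hR1⟩, rfl⟩
    apply acc_smul_posDef
    · exact (Matrix.IsUnit.posDef_star_left_conjugate_iff hRu).mpr hP
    · have h3 : (4 * (cir k)⁻¹ : ℂ) = ((4 : ℝ) : ℂ) * (cir k)⁻¹ := by norm_num
      rw [h3, Complex.re_ofReal_mul]
      have := cir_re k
      linarith

/-- The condition on Cayley parameters is open. -/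
theorem exists_skew_near {Y : Matrix (Fin n) (Fin n) ℂ} (hY : IsUnit Y) :
    ∃ (S : Matrix (Fin n) (Fin n) ℂ) (ε : ℝ), Sᴴ = -S ∧ 0 < ε ∧
      ∀ T : Matrix (Fin n) (Fin n) ℂ, (∀ a b, ‖T a b - S a b‖ < ε) →
        Acc ((1 - T) * Y * (1 - T)) := by
  obtain ⟨S, hS, hacc⟩ := exists_skew hY
  have h1 : ∀ᶠ T in nhds (S : Fin n → Fin n → ℂ),
      Acc ((1 - Matrix.of T) * Y * (1 - Matrix.of T)) := by
    apply acc_eventually (F := fun T : Fin n → Fin n → ℂ =>
      (1 - Matrix.of T) * Y * (1 - Matrix.of T))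
    · intro a b
      apply Continuous.continuousAt
      simp only [Matrix.mul_apply, Matrix.sub_apply, Matrix.of_apply]
      fun_prop
    · exact hacc
  obtain ⟨ε, hε, h2⟩ := Metric.eventually_nhds_iff.mp h1
  refine ⟨S, ε, hS, hε, fun T hT => ?_⟩
  have h3 : @dist (Fin n → Fin n → ℂ) _ T S < ε := by
    refine (dist_pi_lt_iff hε).mpr fun a => (dist_pi_lt_iff hε).mpr fun b => ?_
    rw [dist_eq_norm]
    exact hT a b
  exact h2 h3

end Vale.Agent.P011.ExtF
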