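import Vale.Agent.P011.ExtF.Fam

/-!
Extension of a function on the positive cone of a division algebra with involution to a
homomorphism of the multiplicative group.
-/

open Module Matrix
open scoped ComplexOrder

set_option linter.unusedSectionVars false

namespace Vale.Agent.P011.ExtF

variable {D : Type} [DivisionRing D] [StarRing D] {ι : Type} {n : ℕ}

/-- A function on the positive cone and a character of the unitary group of a line with the
properties of the classes of the quasi-reflections. -/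
structure Chi (G : Fam D ι n) (A : Type) [CommGroup A] where
  psi : D → A
  chi : D → A
  psi_conj : ∀ c z : D, c ≠ 0 → z ∈ G.X → psi (c * z * star c) = psi z
  psi_star : ∀ z ∈ G.X, psi (star z) = (psi z)⁻¹
  psi_B : ∀ z z' r : D, z ∈ G.X → z' ∈ G.X → z * r ∈ G.X → z' * r ∈ G.X →
    psi (z * r) * (psi z)⁻¹ = psi (z' * r) * (psi z')⁻¹
  chi_mul : ∀ s t : D, s * star s = 1 → t * star t = 1 → chi (s * t) = chi s * chi t
  chi_psi : ∀ s : D, s * star s = 1 → 1 + s ≠ 0 → psi ((1 + s)⁻¹) = chi (-s)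
  tau : D
  tau_unit : tau * star tau = 1
  tau_ne : tau ≠ 1
  tau_ne' : tau ≠ -1

namespace Chi

variable {G : Fam D ι n} {A : Type} [CommGroup A] (C : Chi G A)

theorem psi_inv {z : D} (hz : z ∈ G.X) : C.psi z⁻¹ = (C.psi z)⁻¹ := by
  have h1 := C.psi_conj z⁻¹ (star z) (inv_ne_zero hz.1) (Fam.star_mem hz)
  rw [← C.psi_star z hz, ← h1, star_inv₀]
  congr 1
  rw [mul_assoc, mul_inv_cancel₀ (star_ne_zero.mpr hz.1), mul_one]

/-- normalised values -/
def lam (z : D) : A := C.psi z * (C.psi 1)⁻¹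

theorem lam_one : C.lam 1 = 1 := mul_inv_cancel _

theorem psi_one_sq : C.psi 1 * C.psi 1 = 1 := by
  have h := C.psi_star 1 Fam.one_mem
  rw [star_one] at h
  nth_rewrite 2 [h]
  exact mul_inv_cancel _

theorem lam_mul {a b : D} (ha : a ∈ G.X) (hb : b ∈ G.X) (hab : a * b ∈ G.X) :
    C.lam (a * b) = C.lam a * C.lam b := by
  have h := C.psi_B a 1 b ha Fam.one_mem hab (by rwa [one_mul])
  rw [one_mul] at h
  unfold lam
  rw [← h]
  calc C.psi (a * b) * (C.psi 1)⁻¹
      = (C.psi a * (C.psi a)⁻¹) * (C.psi (a * b) * (C.psi 1)⁻¹) := by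
        rw [mul_inv_cancel, one_mul]
    _ = C.psi a * (C.psi 1)⁻¹ * (C.psi (a * b) * (C.psi a)⁻¹) := by
        simp only [mul_assoc, mul_comm, mul_left_comm]

theorem lam_conj {c z : D} (hc : c ≠ 0) (hz : z ∈ G.X) : C.lam (c * z * star c) = C.lam z := by
  unfold lam
  rw [C.psi_conj c z hc hz]

/-- the left version of the main property -/
theorem psi_B' {y y' r : D} (hy : y ∈ G.X) (hy' : y' ∈ G.X) (h : r * y ∈ G.X)
    (h' : r * y' ∈ G.X) : C.psi (r * y) * (C.psi y)⁻¹ = C.psi (r * y') * (C.psi y')⁻¹ := by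
  have h1 := C.psi_B (star y) (star y') (star r) (Fam.star_mem hy) (Fam.star_mem hy')
    (by rw [← star_mul]; exact Fam.star_mem h) (by rw [← star_mul]; exact Fam.star_mem h')
  rw [← star_mul, ← star_mul, C.psi_star _ h, C.psi_star _ h', C.psi_star _ hy,
    C.psi_star _ hy', inv_inv, inv_inv] at h1
  have h2 := congrArg Inv.inv h1
  rw [mul_inv, mul_inv, inv_inv, inv_inv] at h2
  exact h2

theorem lam_B' {y y' r : D} (hy : y ∈ G.X) (hy' : y' ∈ G.X) (h : r * y ∈ G.X)
    (h' : r * y' ∈ G.X) : C.lam (r * y) * (C.lam y)⁻¹ = C.lam (r * y') * (C.lam y')⁻¹ := by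
  have h1 := C.psi_B' hy hy' h h'
  unfold lam
  rw [mul_inv, mul_inv, inv_inv]
  calc C.psi (r * y) * (C.psi 1)⁻¹ * ((C.psi y)⁻¹ * C.psi 1)
      = (C.psi (r * y) * (C.psi y)⁻¹) * ((C.psi 1)⁻¹ * C.psi 1) := by
        simp only [mul_assoc, mul_comm, mul_left_comm]
    _ = (C.psi (r * y') * (C.psi y')⁻¹) * ((C.psi 1)⁻¹ * C.psi 1) := by rw [h1]
    _ = _ := by simp only [mul_assoc, mul_comm, mul_left_comm]

theorem chi_one : C.chi 1 = 1 := by
  have h := C.chi_mul 1 1 unit_one unit_one
  rw [mul_one] at h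
  exact (mul_eq_left.mp h.symm)

theorem chi_neg_one : C.chi (-1) * C.chi (-1) = 1 := by
  rw [← C.chi_mul (-1) (-1) unit_neg_one unit_neg_one, neg_mul_neg, one_mul, C.chi_one]

theorem chi_star {s : D} (hs : s * star s = 1) : C.chi (star s) = (C.chi s)⁻¹ := by
  rw [eq_inv_iff_mul_eq_one, ← C.chi_mul (star s) s (unit_star hs) hs]
  have h := unit_star hs
  rw [star_star] at h
  rw [h, C.chi_one]

theorem chi_neg {s : D} (hs : s * star s = 1) : C.chi (-s) = C.chi (-1) * C.chi s := by
  rw [← C.chi_mul (-1) s unit_neg_one hs, neg_one_mul]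

/-- the square of the value of the character -/
def sq (s : D) : A := C.chi s * C.chi s

theorem sq_mul {s t : D} (hs : s * star s = 1) (ht : t * star t = 1) :
    C.sq (s * t) = C.sq s * C.sq t := by
  unfold sq
  rw [C.chi_mul s t hs ht]
  simp only [mul_assoc, mul_comm, mul_left_comm]

theorem sq_star {s : D} (hs : s * star s = 1) : C.sq (star s) = (C.sq s)⁻¹ := by
  unfold sq
  rw [C.chi_star hs, mul_inv]

theorem sq_neg {s : D} (hs : s * star s = 1) : C.sq (-s) = C.sq s := by
  unfold sq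
  rw [C.chi_neg hs]
  calc C.chi (-1) * C.chi s * (C.chi (-1) * C.chi s)
      = (C.chi (-1) * C.chi (-1)) * (C.chi s * C.chi s) := by
        simp only [mul_assoc, mul_comm, mul_left_comm]
    _ = _ := by rw [C.chi_neg_one, one_mul]

theorem twist_aux {s a : D} (hs : s * star s = 1) (h : 1 + s ≠ 0) (ha : a ∈ G.X)
    (hsa : s * a ∈ G.X) : C.lam (s * a) = (C.sq s)⁻¹ * C.lam a := by
  have h1 : 1 + s ∈ G.X := Fam.one_add_mem hs h
  have h2 : s * star (1 + s) = 1 + s := by
    rw [star_add, star_one, mul_add, mul_one, hs, add_comm]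
  have h3 := C.lam_B' ha (Fam.star_mem h1) hsa (by rw [h2]; exact h1)
  rw [h2] at h3
  have h4 : C.lam (1 + s) * (C.lam (star (1 + s)))⁻¹ = (C.sq s)⁻¹ := by
    unfold lam
    rw [C.psi_star _ h1]
    have h5 : C.psi (1 + s) = (C.chi (-s))⁻¹ := by
      rw [← C.chi_psi s hs h, C.psi_inv h1, inv_inv]
    rw [h5, inv_inv, ← C.sq_neg hs]
    unfold sq
    rw [mul_inv, mul_inv, inv_inv]
    calc (C.chi (-s))⁻¹ * (C.psi 1)⁻¹ * ((C.chi (-s))⁻¹ * C.psi 1)
        = (C.chi (-s))⁻¹ * (C.chi (-s))⁻¹ * ((C.psi 1)⁻¹ * C.psi 1) := by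
          simp only [mul_assoc, mul_comm, mul_left_comm]
      _ = _ := by rw [inv_mul_cancel, mul_one]
  rw [h4] at h3
  rw [← h3, inv_mul_cancel_right]

/-- The change of the values under left multiplication by unitary elements. -/
theorem lam_twist {s a : D} (hs : s * star s = 1) (ha : a ∈ G.X) (hsa : s * a ∈ G.X) :
    C.lam (s * a) = (C.sq s)⁻¹ * C.lam a := by
  by_cases h : 1 + s = 0
  · have hs1 : s = -1 := by rw [eq_neg_iff_add_eq_zero, add_comm]; exact h
    subst hs1
    -- everything is positive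
    have hall : ∀ z : D, z ≠ 0 → z ∈ G.X := by
      intro z hz
      refine ⟨hz, fun i => ?_⟩
      have h1 := ha.2 i
      have h2 := hsa.2 i
      rw [neg_one_mul, map_neg] at h2
      have h3 := h1.add h2
      rw [add_neg_cancel] at h3
      have h4 : IsEmpty (Fin n) := by
        by_contra hne
        rw [not_isEmpty_iff] at hne
        exact not_isUnit_zero h3.isUnit
      unfold Acc
      rw [Subsingleton.elim (G.g i z + (G.g i z)ᴴ) 1]
      exact Matrix.PosDef.one
    have ht := C.tau_unit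
    have ht0 := unit_ne ht
    have h1 : (-C.tau) * star (-C.tau) = 1 := by rw [star_neg, neg_mul_neg, ht]
    have h2 : 1 + -C.tau ≠ 0 := by
      intro h3
      apply C.tau_ne
      rw [← sub_eq_add_neg] at h3
      exact (sub_eq_zero.mp h3).symm
    have h3 : 1 + star C.tau ≠ 0 := by
      intro h4
      apply C.tau_ne'
      have h5 := congrArg star h4
      rw [star_add, star_one, star_star, star_zero] at h5
      rw [eq_neg_iff_add_eq_zero, add_comm]; exact h5
    have h4 : -1 * a = -C.tau * (star C.tau * a) := by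
      rw [← mul_assoc, neg_mul C.tau, ht]
    have h5 : star C.tau * a ≠ 0 := mul_ne_zero (star_ne_zero.mpr ht0) ha.1
    rw [h4, C.twist_aux h1 h2 (hall _ h5) (by rw [← h4]; exact hsa),
      C.twist_aux (unit_star ht) h3 ha (hall _ h5), C.sq_neg ht, C.sq_star ht, inv_inv,
      inv_mul_cancel_left]
    have h6 : C.sq (-1) = 1 := C.chi_neg_one
    rw [h6, inv_one, one_mul]
  · exact C.twist_aux hs h ha hsa

/-- the value at `x` computed with the unitary element `t` -/
def val (t x : D) : A := (C.sq t)⁻¹ * C.lam (star t * x)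

theorem val_eq {t t' x : D} (ht : t * star t = 1) (hx : star t * x ∈ G.X)
    (ht' : t' * star t' = 1) (hx' : star t' * x ∈ G.X) : C.val t x = C.val t' x := by
  have h1 : (star t' * t) * (star t * x) = star t' * x := by
    rw [mul_assoc, ← mul_assoc t, ht, one_mul]
  have h2 : (star t' * t) * star (star t' * t) = 1 := unit_mul (unit_star ht') ht
  have h3 := C.lam_twist h2 hx (by rw [h1]; exact hx')
  rw [h1, C.sq_mul (unit_star ht') ht, C.sq_star ht'] at h3
  unfold val
  rw [h3, mul_inv, inv_inv]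
  simp only [← mul_assoc]
  rw [inv_mul_cancel, one_mul]

open Classical in
/-- The extension to the whole division algebra. -/
noncomputable def F0 (x : D) : A :=
  if h : ∃ t : D, t * star t = 1 ∧ star t * x ∈ G.X then C.val h.choose x else 1

theorem F0_eq {t x : D} (ht : t * star t = 1) (hx : star t * x ∈ G.X) :
    C.F0 x = C.val t x := by
  have h : ∃ t : D, t * star t = 1 ∧ star t * x ∈ G.X := ⟨t, ht, hx⟩
  unfold F0
  rw [dif_pos h]
  exact C.val_eq h.choose_spec.1 h.choose_spec.2 ht hx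

theorem F0_X {a : D} (ha : a ∈ G.X) : C.F0 a = C.lam a := by
  rw [C.F0_eq (t := 1) unit_one (by rwa [star_one, one_mul]), val, star_one, one_mul]
  unfold sq
  rw [C.chi_one, mul_one, inv_one, one_mul]

theorem F0_unit {t : D} (ht : t * star t = 1) : C.F0 t = (C.sq t)⁻¹ := by
  have h1 : star t * t = 1 := by
    have := unit_star ht
    rwa [star_star] at this
  rw [C.F0_eq (t := t) ht (by rw [h1]; exact Fam.one_mem), val, h1, C.lam_one, mul_one]

/-- one step of the path -/
theorem step {x b b' t : D} (hb : b ∈ G.X) (hb' : b' ∈ G.X) (ht : t * star t = 1)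
    (h : star t * (x * b) ∈ G.X) (h' : star t * (x * b') ∈ G.X) :
    C.F0 (x * b) * (C.lam b)⁻¹ = C.F0 (x * b') * (C.lam b')⁻¹ := by
  rw [C.F0_eq ht h, C.F0_eq ht h', val, val, mul_assoc, mul_assoc]
  congr 1
  rw [← mul_assoc] at h h' ⊢
  rw [← mul_assoc]
  exact C.lam_B' hb hb' h h'

section

variable [CharZero D] [Finite ι]

theorem F0_mul_unit {x t : D} (hx : x ≠ 0) (ht : t * star t = 1) :
    C.F0 (x * t) = C.F0 x * (C.sq t)⁻¹ := by
  obtain ⟨u, hu, hux⟩ := Fam.exists_rep (G := G) hx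
  have h1 : star (u * t) * (x * t) = star t * (star u * x) * star (star t) := by
    rw [star_mul, star_star]
    simp only [mul_assoc]
  have h2 : star (u * t) * (x * t) ∈ G.X := by
    rw [h1]
    exact Fam.conj_mem (star_ne_zero.mpr (unit_ne ht)) hux
  rw [C.F0_eq (unit_mul hu ht) h2, C.F0_eq hu hux, val, val, h1,
    C.lam_conj (star_ne_zero.mpr (unit_ne ht)) hux, C.sq_mul hu ht, mul_inv]
  simp only [mul_comm, mul_left_comm]

theorem natCast_conj (M : ℕ) (z : D) : z * ((M * M : ℕ) : D) = (M : D) * z * star (M : D) := by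
  rw [star_natCast, Nat.cast_mul, (Nat.cast_commute M z).eq, mul_assoc]

theorem lam_mul_nat {M : ℕ} (hM : M ≠ 0) {z : D} (hz : z ∈ G.X) :
    C.lam (z * ((M * M : ℕ) : D)) = C.lam z := by
  rw [natCast_conj, C.lam_conj (Nat.cast_ne_zero.mpr hM) hz]

theorem F0_mul_nat {M : ℕ} (hM : M ≠ 0) {x : D} (hx : x ≠ 0) :
    C.F0 (x * ((M * M : ℕ) : D)) = C.F0 x := by
  obtain ⟨t, ht, h⟩ := Fam.exists_rep (G := G) hx
  have h1 : star t * (x * ((M * M : ℕ) : D)) ∈ G.X := by
    rw [← mul_assoc, natCast_conj]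
    exact Fam.conj_mem (Nat.cast_ne_zero.mpr hM) h
  rw [C.F0_eq ht h1, C.F0_eq ht h, val, val, ← mul_assoc, C.lam_mul_nat hM h]

end

end Chi

end Vale.Agent.P011.ExtF
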