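import Vale.Agent.P011.ExtF.Cay

/-!
A division algebra with involution and its completions at finitely many places where the
involution is the conjugate transpose: the cone of the elements with positive hermitian part.
-/

open Module Matrix
open scoped ComplexOrder

namespace Vale.Agent.P011.ExtF

/-- Homomorphisms to matrix algebras, compatible with the involutions, with dense image. -/
structure Fam (D : Type) [DivisionRing D] [StarRing D] (ι : Type) (n : ℕ) where
  g : ι → D →+* Matrix (Fin n) (Fin n) ℂ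
  g_star : ∀ i x, g i (star x) = (g i x)ᴴ
  dense : ∀ (X : ι → Matrix (Fin n) (Fin n) ℂ) (ε : ℝ), 0 < ε →
    ∃ x : D, ∀ i a b, ‖g i x a b - X i a b‖ < ε

section ring

variable {D : Type} [DivisionRing D] [StarRing D]

theorem unit_ne {t : D} (ht : t * star t = 1) : t ≠ 0 := by
  rintro rfl
  rw [zero_mul] at ht
  exact zero_ne_one ht

theorem unit_inv {t : D} (ht : t * star t = 1) : star t = t⁻¹ := by
  have h := unit_ne ht
  calc star t = t⁻¹ * (t * star t) := by rw [← mul_assoc, inv_mul_cancel₀ h, one_mul]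
    _ = _ := by rw [ht, mul_one]

theorem unit_star {t : D} (ht : t * star t = 1) : star t * star (star t) = 1 := by
  rw [star_star, unit_inv ht, inv_mul_cancel₀ (unit_ne ht)]

theorem unit_mul {s t : D} (hs : s * star s = 1) (ht : t * star t = 1) :
    s * t * star (s * t) = 1 := by
  rw [star_mul]
  calc s * t * (star t * star s) = s * (t * star t) * star s := by simp only [mul_assoc]
    _ = 1 := by rw [ht, mul_one, hs]

theorem unit_one : (1 : D) * star 1 = 1 := by rw [star_one, one_mul]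

theorem unit_neg_one : (-1 : D) * star (-1) = 1 := by
  rw [star_neg, star_one, neg_mul_neg, one_mul]

end ring

variable {D : Type} [DivisionRing D] [StarRing D] {ι : Type} {n : ℕ}

namespace Fam

variable (G : Fam D ι n)

/-- The elements whose hermitian part is positive at all places. -/
def X : Set D := {z | z ≠ 0 ∧ ∀ i, Acc (G.g i z)}

variable {G}

theorem ne {z : D} (h : z ∈ G.X) : z ≠ 0 := h.1

theorem isUnit (i : ι) {x : D} (hx : x ≠ 0) : IsUnit (G.g i x) :=
  (isUnit_iff_ne_zero.mpr hx).map (G.g i)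

theorem one_mem : (1 : D) ∈ G.X := ⟨one_ne_zero, fun i => by rw [map_one]; exact acc_one⟩

theorem star_mem {z : D} (h : z ∈ G.X) : star z ∈ G.X :=
  ⟨star_ne_zero.mpr h.1, fun i => by rw [G.g_star]; exact (h.2 i).tr⟩

theorem inv_mem {z : D} (h : z ∈ G.X) : z⁻¹ ∈ G.X :=
  ⟨inv_ne_zero h.1, fun i => (h.2 i).inv (by rw [← map_mul, mul_inv_cancel₀ h.1, map_one])⟩

theorem conj_mem {c z : D} (hc : c ≠ 0) (h : z ∈ G.X) : c * z * star c ∈ G.X :=
  ⟨mul_ne_zero (mul_ne_zero hc h.1) (star_ne_zero.mpr hc), fun i => by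
    rw [map_mul, map_mul, G.g_star]
    exact (h.2 i).conj (isUnit i hc)⟩

theorem conj_mem_iff {c z : D} (hc : c ≠ 0) : c * z * star c ∈ G.X ↔ z ∈ G.X := by
  refine ⟨fun h => ?_, conj_mem hc⟩
  have h1 := conj_mem (inv_ne_zero hc) h
  rwa [star_inv₀, show c⁻¹ * (c * z * star c) * (star c)⁻¹ =
    (c⁻¹ * c) * z * (star c * (star c)⁻¹) by simp only [mul_assoc], inv_mul_cancel₀ hc,
    mul_inv_cancel₀ (star_ne_zero.mpr hc), one_mul, mul_one] at h1

/-- a unitary element different from `-1` -/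
theorem one_add_mem {s : D} (hs : s * star s = 1) (h : 1 + s ≠ 0) : 1 + s ∈ G.X :=
  ⟨h, fun i => by
    have h1 : IsUnit (1 + G.g i s) := by
      have h2 := isUnit (G := G) i h
      rwa [map_add, map_one] at h2
    rw [map_add, map_one]
    refine acc_one_add ?_ h1
    rw [← G.g_star, ← map_mul, hs, map_one]⟩

theorem acc_natCast_mul {i : ι} {z : D} (h : Acc (G.g i z)) {N : ℕ} (hN : 0 < N) :
    Acc (G.g i ((N : D) * z)) := by
  rw [map_mul, map_natCast]
  have h1 := h.smul (r := (N : ℝ)) (by exact_mod_cast hN)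
  have h2 : ((N : Matrix (Fin n) (Fin n) ℂ)) * G.g i z = (((N : ℝ) : ℂ)) • G.g i z := by
    rw [Complex.ofReal_natCast, Nat.cast_smul_eq_nsmul, nsmul_eq_mul]
  rwa [h2]

theorem add_mem' [Nonempty ι] (hn : 0 < n) {z z' : D} (h : ∀ i, Acc (G.g i z))
    (h' : ∀ i, Acc (G.g i z')) : z + z' ∈ G.X := by
  have h1 : ∀ i, Acc (G.g i (z + z')) := fun i => by
    rw [map_add]; exact (h i).add (h' i)
  refine ⟨?_, h1⟩
  intro h0
  obtain ⟨i⟩ := ‹Nonempty ι›
  have h2 := (h1 i).isUnit
  rw [h0, map_zero] at h2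
  have hne : Nonempty (Fin n) := ⟨⟨0, hn⟩⟩
  exact not_isUnit_zero h2

section char

variable [CharZero D]

theorem skew_ne {s : D} (hs : star s = -s) : 1 - s ≠ 0 ∧ 1 + s ≠ 0 := by
  constructor
  · intro h
    have h1 : s = 1 := (sub_eq_zero.mp h).symm
    rw [h1, star_one] at hs
    have h2 : (2 : D) = 0 := by rw [← one_add_one_eq_two]; nth_rewrite 2 [hs]; abel
    exact two_ne_zero h2
  · intro h
    have h1 : s = -1 := by rw [eq_neg_iff_add_eq_zero, add_comm]; exact h
    rw [h1, star_neg, star_one, neg_neg] at hs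
    have h2 : (2 : D) = 0 := by rw [← one_add_one_eq_two]; nth_rewrite 1 [← hs]; abel
    exact two_ne_zero h2

/-- The Cayley transform. -/
noncomputable def cay (s : D) : D := (1 - s)⁻¹ * (1 + s)

theorem cay_unit {s : D} (hs : star s = -s) : cay s * star (cay s) = 1 := by
  obtain ⟨h1, h2⟩ := skew_ne hs
  have h3 : star (cay s) = (1 - s) * (1 + s)⁻¹ := by
    unfold cay
    rw [star_mul, star_inv₀, star_add, star_sub, star_one, hs, sub_neg_eq_add, ← sub_eq_add_neg]
  have hc : (1 + s) * (1 - s) = (1 - s) * (1 + s) := by noncomm_ring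
  rw [h3]
  unfold cay
  calc (1 - s)⁻¹ * (1 + s) * ((1 - s) * (1 + s)⁻¹)
      = (1 - s)⁻¹ * ((1 + s) * (1 - s)) * (1 + s)⁻¹ := by simp only [mul_assoc]
    _ = ((1 - s)⁻¹ * (1 - s)) * ((1 + s) * (1 + s)⁻¹) := by rw [hc]; simp only [mul_assoc]
    _ = 1 := by rw [inv_mul_cancel₀ h1, mul_inv_cancel₀ h2, mul_one]

theorem cay_conj {s x : D} (hs : star s = -s) :
    (1 + s) * (star (cay s) * x) * star (1 + s) = (1 - s) * x * (1 - s) := by
  obtain ⟨h1, h2⟩ := skew_ne hs
  have h3 : star (cay s) = (1 - s) * (1 + s)⁻¹ := by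
    unfold cay
    rw [star_mul, star_inv₀, star_add, star_sub, star_one, hs, sub_neg_eq_add, ← sub_eq_add_neg]
  have hc : (1 + s) * (1 - s) = (1 - s) * (1 + s) := by noncomm_ring
  rw [h3, star_add, star_one, hs, ← sub_eq_add_neg]
  calc (1 + s) * ((1 - s) * (1 + s)⁻¹ * x) * (1 - s)
      = ((1 + s) * (1 - s)) * (1 + s)⁻¹ * x * (1 - s) := by simp only [mul_assoc]
    _ = (1 - s) * ((1 + s) * (1 + s)⁻¹) * x * (1 - s) := by rw [hc]; simp only [mul_assoc]
    _ = _ := by rw [mul_inv_cancel₀ h2, mul_one]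

/-- membership in terms of the Cayley parameter -/
theorem cay_mem_iff {s x : D} (hs : star s = -s) :
    star (cay s) * x ∈ G.X ↔ (1 - s) * x * (1 - s) ∈ G.X := by
  rw [← cay_conj hs, conj_mem_iff (skew_ne hs).2]

/-- skew elements are dense -/
theorem exists_skew_elt [Finite ι] {S : ι → Matrix (Fin n) (Fin n) ℂ} (hS : ∀ i, (S i)ᴴ = -S i)
    {ε : ℝ} (hε : 0 < ε) :
    ∃ s : D, star s = -s ∧ ∀ i a b, ‖G.g i s a b - S i a b‖ < ε := by
  obtain ⟨x, hx⟩ := G.dense S ε hε
  have h2 : (2 : D) ≠ 0 := two_ne_zero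
  have hcom : ∀ y : D, (2 : D)⁻¹ * y = y * (2 : D)⁻¹ := fun y => by
    have h : Commute (2 : D) y := by
      rw [← Nat.cast_ofNat (R := D) (n := 2)]; exact Nat.cast_commute 2 y
    exact (h.inv_left₀).eq
  have hstar2 : star ((2 : D)⁻¹) = (2 : D)⁻¹ := by
    rw [star_inv₀]; congr 1
    rw [← Nat.cast_ofNat (R := D) (n := 2), star_natCast]
  refine ⟨(2 : D)⁻¹ * (x - star x), ?_, fun i a b => ?_⟩
  · rw [star_mul, star_sub, star_star, hstar2, ← hcom]
    noncomm_ring
  · have h3 : (2 : ℂ) • G.g i ((2 : D)⁻¹ * (x - star x)) = G.g i x - (G.g i x)ᴴ := by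
      have h4 : (2 : ℂ) • G.g i ((2 : D)⁻¹ * (x - star x)) =
          G.g i ((2 : D) * ((2 : D)⁻¹ * (x - star x))) := by
        rw [map_mul (G.g i) 2, map_ofNat, two_smul, two_mul]
      rw [h4, ← mul_assoc, mul_inv_cancel₀ h2, one_mul, map_sub, G.g_star]
    have h5 : (2 : ℂ) * (G.g i ((2 : D)⁻¹ * (x - star x)) a b - S i a b) =
        (G.g i x a b - S i a b) - star (G.g i x b a - S i b a) := by
      have h6 := congrFun (congrFun h3 a) b
      rw [Matrix.smul_apply, Matrix.sub_apply, Matrix.conjTranspose_apply, smul_eq_mul] at h6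
      have h7 := congrFun (congrFun (hS i) a) b
      rw [Matrix.conjTranspose_apply, Matrix.neg_apply] at h7
      rw [mul_sub, h6, star_sub, h7]
      ring
    have h8 := congrArg norm h5
    rw [norm_mul, Complex.norm_ofNat] at h8
    have h9 := norm_sub_le (G.g i x a b - S i a b) (star (G.g i x b a - S i b a))
    rw [norm_star] at h9
    have h10 := hx i a b
    have h11 := hx i b a
    linarith

/-- a skew element whose Cayley transform makes the given matrices positive -/
theorem exists_good [Finite ι] {Y : ι → Matrix (Fin n) (Fin n) ℂ} (hY : ∀ i, IsUnit (Y i)) :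
    ∃ s : D, star s = -s ∧ ∀ i, Acc ((1 - G.g i s) * Y i * (1 - G.g i s)) := by
  choose S ε hS hε h using fun i => exists_skew_near (hY i)
  obtain ⟨δ, hδ, hδ'⟩ : ∃ δ : ℝ, 0 < δ ∧ ∀ i, δ ≤ ε i := by
    rcases isEmpty_or_nonempty ι with hι | hι
    · exact ⟨1, one_pos, fun i => (hι.false i).elim⟩
    · obtain ⟨i0, hi0⟩ := Finite.exists_min ε
      exact ⟨ε i0, hε i0, hi0⟩
  obtain ⟨s, hs, hs'⟩ := exists_skew_elt (G := G) hS hδ
  exact ⟨s, hs, fun i => h i _ fun a b => (hs' i a b).trans_le (hδ' i)⟩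

/-- Every nonzero element becomes positive after multiplication by a unitary element. -/
theorem exists_rep [Finite ι] {x : D} (hx : x ≠ 0) :
    ∃ t : D, t * star t = 1 ∧ star t * x ∈ G.X := by
  obtain ⟨s, hs, h⟩ := exists_good (G := G) (Y := fun i => G.g i x) fun i => isUnit i hx
  refine ⟨cay s, cay_unit hs, (cay_mem_iff hs).mpr ⟨?_, fun i => ?_⟩⟩
  · exact mul_ne_zero (mul_ne_zero (skew_ne hs).1 hx) (skew_ne hs).1
  · rw [map_mul, map_mul, map_sub, map_one]
    exact h i

end char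

end Fam

end Vale.Agent.P011.ExtF
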