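import Vale.Agent.P011.ExtF.Sym
import Vale.Agent.P011.W.SukAll

/-!
The character of the unitary group of a line is trivial on elements of reduced norm one.
-/

open Module Matrix
open scoped ComplexOrder

set_option linter.unusedSectionVars false

namespace Vale.Agent.P011.ExtF

variable {D : Type} [DivisionRing D] [StarRing D] {ι : Type} {n : ℕ}

/-- A central skew element. -/
structure Kap (G : Fam D ι n) where
  k : D
  ne : k ≠ 0
  skew : star k = -k
  comm : ∀ x, k * x = x * k
  place : ∀ i, ∃ r : ℝ, G.g i k = ((r : ℂ) * Complex.I) • (1 : Matrix (Fin n) (Fin n) ℂ)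

variable [CharZero D] {G : Fam D ι n}

/-- A symmetric element becomes positive after multiplication by a unitary element which
commutes with it. -/
theorem exists_comm_rep [Finite ι] (hn : 0 < n) (κ : Kap G) {s : D} (hs : s ≠ 0)
    (hst : star s = s) : ∃ t : D, t * star t = 1 ∧ star t * s ∈ G.X ∧ t * s = s * t := by
  rcases isEmpty_or_nonempty ι with hι | hι
  · exact ⟨1, unit_one, by rw [star_one, one_mul]; exact ⟨hs, fun i => (hι.false i).elim⟩,
      by rw [one_mul, mul_one]⟩
  have hne : Nonempty (Fin n) := ⟨⟨0, hn⟩⟩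
  choose r hr using κ.place
  have hr0 : ∀ i, r i ≠ 0 := by
    intro i h0
    have h1 := Fam.isUnit (G := G) i κ.ne
    rw [hr, h0, Complex.ofReal_zero, zero_mul, zero_smul] at h1
    exact not_isUnit_zero h1
  have hev : ∀ᶠ N : ℕ in Filter.atTop, ∀ i,
      Acc (((1 + G.g i s) ^ N - ((r i : ℂ) * Complex.I) • (1 - G.g i s) ^ N) * G.g i s *
        ((1 + G.g i s) ^ N - ((r i : ℂ) * Complex.I) • (1 - G.g i s) ^ N)) := by
    rw [Filter.eventually_all]
    intro i
    exact acc_pow_eventually (by rw [← G.g_star, hst]) (Fam.isUnit i hs) (hr0 i)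
  obtain ⟨N, hN⟩ := hev.exists
  obtain ⟨y, hy⟩ : ∃ y : D, y = (1 + s) ^ N + κ.k * (1 - s) ^ N := ⟨_, rfl⟩
  obtain ⟨y', hy'⟩ : ∃ y' : D, y' = (1 + s) ^ N - κ.k * (1 - s) ^ N := ⟨_, rfl⟩
  have hyy' : star y = y' := by
    rw [hy, hy', star_add, star_mul, star_pow, star_pow, star_add, star_sub, star_one, hst,
      κ.skew, mul_neg, ← κ.comm]
    exact (sub_eq_add_neg _ _).symm
  have hy'y : star y' = y := by rw [← hyy', star_star]
  have hg : ∀ i, G.g i y' = (1 + G.g i s) ^ N - ((r i : ℂ) * Complex.I) • (1 - G.g i s) ^ N := by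
    intro i
    rw [hy', map_sub, map_mul, map_pow, map_pow, map_add, map_sub, map_one, hr, smul_mul_assoc,
      one_mul]
  have hacc : ∀ i, Acc (G.g i (y' * s * y')) := by
    intro i
    rw [map_mul, map_mul, hg]
    exact hN i
  have hy'0 : y' ≠ 0 := by
    rintro h0
    obtain ⟨i⟩ := hι
    have h1 := (hacc i).isUnit
    rw [h0, zero_mul, zero_mul, map_zero] at h1
    exact not_isUnit_zero h1
  have hy0 : y ≠ 0 := by rw [← hy'y]; exact star_ne_zero.mpr hy'0
  -- commutation
  have c1 : Commute s (1 + s) := (Commute.one_right s).add_right (Commute.refl s)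
  have c2 : Commute s (1 - s) := (Commute.one_right s).sub_right (Commute.refl s)
  have ck : ∀ x, Commute κ.k x := κ.comm
  have csy : Commute s y := by
    rw [hy]
    exact (c1.pow_right N).add_right ((ck s).symm.mul_right (c2.pow_right N))
  have csy' : Commute s y' := by
    rw [hy']
    exact (c1.pow_right N).sub_right ((ck s).symm.mul_right (c2.pow_right N))
  have c3 : Commute (1 + s) y := by
    exact (Commute.one_left y).add_left csy
  have c4 : Commute (1 - s) y := (Commute.one_left y).sub_left csy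
  have cyy : Commute y y' := by
    rw [hy']
    exact ((c3.pow_left N).symm).sub_right (((ck y).symm).mul_right ((c4.pow_left N).symm))
  have hst' : star (y * y'⁻¹) = y⁻¹ * y' := by
    rw [star_mul, star_inv₀, hy'y, hyy']
  refine ⟨y * y'⁻¹, ?_, ?_, ?_⟩
  · rw [hst']
    calc y * y'⁻¹ * (y⁻¹ * y') = y * (y'⁻¹ * y⁻¹) * y' := by simp only [mul_assoc]
      _ = y * (y⁻¹ * y'⁻¹) * y' := by rw [← _root_.mul_inv_rev, cyy.eq, _root_.mul_inv_rev]
      _ = (y * y⁻¹) * (y'⁻¹ * y') := by simp only [mul_assoc]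
      _ = 1 := by rw [mul_inv_cancel₀ hy0, inv_mul_cancel₀ hy'0, one_mul]
  · rw [hst', ← Fam.conj_mem_iff hy0, hyy']
    have h1 : y * (y⁻¹ * y' * s) * y' = y' * s * y' := by
      rw [← mul_assoc, ← mul_assoc, mul_inv_cancel₀ hy0, one_mul]
    rw [h1]
    exact ⟨mul_ne_zero (mul_ne_zero hy'0 hs) hy'0, hacc⟩
  · exact ((csy.mul_right csy'.inv_right₀).eq).symm

namespace Chi

variable {A : Type} [CommGroup A] (C : Chi G A)
  (hsym : ∀ f ∈ G.X, star f = f → C.psi f = C.psi 1)

include hsym

theorem psi_one_eq : C.psi 1 = C.chi (-1) := by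
  have h2 : (1 : D) + 1 ≠ 0 := by
    rw [one_add_one_eq_two]; exact two_ne_zero
  rw [← C.chi_psi 1 unit_one h2]
  refine (hsym _ (Fam.inv_mem (Fam.one_add_mem unit_one h2)) ?_).symm
  rw [star_inv₀, star_add, star_one]

/-- the value on the Cayley parameter of a unitary element -/
theorem lam_cay {t : D} (ht : t * star t = 1) (h : 1 + t ≠ 0) : C.lam (1 + t)⁻¹ = C.chi t := by
  unfold lam
  rw [C.chi_psi t ht h, C.psi_one_eq hsym, C.chi_neg ht, mul_comm (C.chi (-1)),
    mul_inv_cancel_right]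

theorem lam_sym {f : D} (hf : f ∈ G.X) (hs : star f = f) : C.lam f = 1 := by
  unfold lam
  rw [hsym f hf hs, mul_inv_cancel]

/-- **The extension is trivial on symmetric elements.** -/
theorem F0_sym [Finite ι] (hn : 0 < n) (κ : Kap G) {s : D} (hs : s ≠ 0) (hst : star s = s) :
    C.F0 s = 1 := by
  rcases isEmpty_or_nonempty ι with hι | hι
  · have hX : s ∈ G.X := ⟨hs, fun i => (hι.false i).elim⟩
    rw [C.F0_X hX, C.lam_sym hsym hX hst]
  obtain ⟨t, ht, ha, hc⟩ := exists_comm_rep hn κ hs hst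
  have hta : star t * t = 1 := by
    have := unit_star ht
    rwa [star_star] at this
  obtain ⟨a, had⟩ : ∃ a, a = star t * s := ⟨_, rfl⟩
  have hX : a ∈ G.X := by rw [had]; exact ha
  have hsa : star a = s * t := by rw [had, star_mul, star_star, hst]
  have hc' : star t * s = s * star t := by
    have h1 := congrArg star hc
    rw [star_mul, star_mul, hst] at h1
    exact h1.symm
  have hatt : a * (t * t) = star a := by
    rw [hsa, had, hc']
    calc s * star t * (t * t) = s * (star t * t) * t := by simp only [mul_assoc]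
      _ = _ := by rw [hta, mul_one]
  have haa : a * star a = star a * a := by
    rw [hsa, had]
    calc star t * s * (s * t) = star t * (s * (s * t)) := by rw [mul_assoc]
      _ = star t * (s * (t * s)) := by rw [hc]
      _ = star t * ((s * t) * s) := by rw [mul_assoc]
      _ = star t * ((t * s) * s) := by rw [hc]
      _ = (star t * t) * (s * s) := by simp only [mul_assoc]
      _ = (s * (t * star t)) * s := by rw [hta, one_mul, ht, mul_one]
      _ = (s * t) * (star t * s) := by simp only [mul_assoc]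
  obtain ⟨ρ, hρd⟩ : ∃ ρ, ρ = a + star a := ⟨_, rfl⟩
  have hρ : ρ ∈ G.X := by
    rw [hρd]
    exact Fam.add_mem' hn hX.2 (Fam.star_mem hX).2
  have hρs : star ρ = ρ := by rw [hρd, star_add, star_star, add_comm]
  have hρ0 := hρ.1
  have hρw : ρ * (ρ⁻¹ * a) = a := by rw [← mul_assoc, mul_inv_cancel₀ hρ0, one_mul]
  have hw1 : (ρ⁻¹ * a) * (1 + t * t) = 1 := by
    rw [mul_assoc, mul_add, mul_one, hatt, ← hρd, inv_mul_cancel₀ hρ0]
  have h1t : 1 + t * t ≠ 0 := by
    intro h0
    rw [h0, mul_zero] at hw1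
    exact zero_ne_one hw1
  have hw : (1 + t * t)⁻¹ = ρ⁻¹ * a := by
    calc (1 + t * t)⁻¹ = (ρ⁻¹ * a) * (1 + t * t) * (1 + t * t)⁻¹ := by rw [hw1, one_mul]
      _ = _ := by rw [mul_assoc, mul_inv_cancel₀ h1t, mul_one]
  have htt : (t * t) * star (t * t) = 1 := unit_mul ht ht
  have hwX : ρ⁻¹ * a ∈ G.X := by
    rw [← hw]
    exact Fam.inv_mem (Fam.one_add_mem htt h1t)
  have h1 : C.lam a = C.sq t := by
    rw [← hρw, C.lam_mul hρ hwX (by rw [hρw]; exact hX), C.lam_sym hsym hρ hρs, one_mul, ← hw,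
      C.lam_cay hsym htt h1t, C.chi_mul t t ht ht]
    rfl
  rw [C.F0_eq ht ha, val, ← had, h1, inv_mul_cancel]

variable {K F : Type} [Field K] [CharZero K] [FiniteDimensional ℚ K] [StarRing K]
  [FiniteDimensional ℚ D] [Algebra K D] [FiniteDimensional K D] [StarModule K D]
  [Algebra.IsCentral K D] [Field F] [Algebra K F]

/-- **The character is trivial on elements of reduced norm one.** -/
theorem chi_eq_one [Finite ι] (hn : 0 < n) (κ : Kap G) {d : ℕ} (hD : finrank K D = d ^ 2)
    (hne : ∃ k : K, star k ≠ k) (f : D →ₐ[K] Matrix (Fin d) (Fin d) F) {t : D}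
    (ht : t * star t = 1) (hdet : (f t).det = 1) : C.chi t = 1 := by
  have hsuk : ∀ Z : D, Z ≠ 0 → (f (star Z)).det = (f Z).det → C.F0 Z = 1 := fun Z hZ h =>
    W.suk_all C.F0 (fun a b ha hb => C.F0_mul hn ha hb)
      (fun s hs hst => C.F0_sym hsym hn κ hs hst) hD hne f hZ h
  -- the main case
  have hcay : ∀ u : D, u * star u = 1 → 1 + u ≠ 0 → C.chi u = C.F0 (1 + u)⁻¹ := by
    intro u hu h
    rw [C.F0_X (Fam.inv_mem (Fam.one_add_mem hu h)), C.lam_cay hsym hu h]
  have hdu : ∀ u : D, u * star u = 1 → (f (star (1 + u))).det * (f u).det = (f (1 + u)).det := by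
    intro u hu
    rw [← Matrix.det_mul, ← map_mul, star_add, star_one, add_mul, one_mul]
    have h1 := unit_star hu
    rw [star_star] at h1
    rw [h1, add_comm]
  have hdinv : ∀ u : D, u ≠ 0 → (f u⁻¹).det * (f u).det = 1 := by
    intro u hu
    rw [← Matrix.det_mul, ← map_mul, inv_mul_cancel₀ hu, map_one, Matrix.det_one]
  have hdne : ∀ u : D, u ≠ 0 → (f u).det ≠ 0 := by
    intro u hu h0
    have := hdinv u hu
    rw [h0, mul_zero] at this
    exact zero_ne_one this
  by_cases h : 1 + t = 0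
  · have ht1 : t = -1 := by rw [eq_neg_iff_add_eq_zero, add_comm]; exact h
    subst ht1
    have hτ := C.tau_unit
    have h1 : 1 + C.tau ≠ 0 := by
      intro h3
      apply C.tau_ne'
      rw [eq_neg_iff_add_eq_zero, add_comm]; exact h3
    have h2 : 1 + -C.tau ≠ 0 := by
      intro h3
      apply C.tau_ne
      rw [← sub_eq_add_neg] at h3
      exact (sub_eq_zero.mp h3).symm
    have hτ' : (-C.tau) * star (-C.tau) = 1 := by rw [star_neg, neg_mul_neg, hτ]
    have h3 : C.chi (-1) = C.chi (-C.tau) * (C.chi C.tau)⁻¹ := by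
      rw [C.chi_neg hτ, mul_inv_cancel_right]
    have h4 : C.F0 ((1 + -C.tau)⁻¹ * (1 + C.tau)) = C.chi (-C.tau) * (C.chi C.tau)⁻¹ := by
      rw [C.F0_mul hn (inv_ne_zero h2) h1, ← hcay _ hτ' h2]
      congr 1
      rw [hcay _ hτ h1, eq_inv_iff_mul_eq_one, ← C.F0_mul hn h1 (inv_ne_zero h1),
        mul_inv_cancel₀ h1, C.F0_X Fam.one_mem, C.lam_one]
    rw [h3, ← h4]
    apply hsuk _ (mul_ne_zero (inv_ne_zero h2) h1)
    have e1 : star ((1 + -C.tau)⁻¹ * (1 + C.tau)) = -((1 + -C.tau)⁻¹ * (1 + C.tau)) := by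
      have hc : Commute (1 + C.tau) (1 + -C.tau) := by
        have h5 : Commute C.tau (-C.tau) := (Commute.refl C.tau).neg_right
        exact ((Commute.one_left _).add_left ((Commute.one_right _).add_right h5))
      rw [star_mul, star_inv₀]
      have e2 : star (1 + -C.tau) * C.tau = -(1 + -C.tau) := by
        rw [star_add, star_neg, star_one, add_mul, one_mul, neg_mul]
        have h5 := unit_star hτ
        rw [star_star] at h5
        rw [h5]; abel
      have e3 : star (1 + C.tau) * C.tau = 1 + C.tau := by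
        rw [star_add, star_one, add_mul, one_mul]
        have h5 := unit_star hτ
        rw [star_star] at h5
        rw [h5]; abel
      have hτ0 := unit_ne hτ
      have e4 : star (1 + C.tau) = (1 + C.tau) * C.tau⁻¹ := by
        calc star (1 + C.tau) = star (1 + C.tau) * C.tau * C.tau⁻¹ := by
              rw [mul_assoc, mul_inv_cancel₀ hτ0, mul_one]
          _ = _ := by rw [e3]
      have e5 : star (1 + -C.tau) = -((1 + -C.tau) * C.tau⁻¹) := by
        calc star (1 + -C.tau) = star (1 + -C.tau) * C.tau * C.tau⁻¹ := by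
              rw [mul_assoc, mul_inv_cancel₀ hτ0, mul_one]
          _ = _ := by rw [e2, neg_mul]
      rw [e4, e5, inv_neg, _root_.mul_inv_rev, inv_inv, mul_neg]
      congr 1
      calc (1 + C.tau) * C.tau⁻¹ * (C.tau * (1 + -C.tau)⁻¹)
          = (1 + C.tau) * (C.tau⁻¹ * C.tau) * (1 + -C.tau)⁻¹ := by simp only [mul_assoc]
        _ = (1 + C.tau) * (1 + -C.tau)⁻¹ := by rw [inv_mul_cancel₀ hτ0, mul_one]
        _ = _ := (hc.inv_right₀).eq
    rw [e1, ← neg_one_mul, map_mul, Matrix.det_mul, hdet, one_mul]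
  · rw [hcay t ht h]
    apply hsuk _ (inv_ne_zero h)
    have h1 := hdu t ht
    rw [hdet, mul_one] at h1
    have h2 := hdinv (1 + t) h
    have h3 := hdinv (star (1 + t)) (star_ne_zero.mpr h)
    rw [star_inv₀]
    have h4 := hdne (1 + t) h
    rw [h1] at h3
    exact mul_right_cancel₀ h4 (h3.trans h2.symm)

end Chi

end Vale.Agent.P011.ExtF
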