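import Vale.Agent.P011.ExtF.Ext

/-!
The extension to the whole division algebra is multiplicative: continuation along a segment in
the positive cone.
-/

open Module Matrix
open scoped ComplexOrder

set_option linter.unusedSectionVars false

namespace Vale.Agent.P011.ExtF

variable {n : ℕ}

/-- the points of the segment from `1` to `M` -/
noncomputable def seg (M : Matrix (Fin n) (Fin n) ℂ) (t : ℝ) : Matrix (Fin n) (Fin n) ℂ :=
  ((1 - t : ℝ) : ℂ) • (1 : Matrix (Fin n) (Fin n) ℂ) + ((t : ℝ) : ℂ) • M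

theorem acc_seg {M : Matrix (Fin n) (Fin n) ℂ} (h : Acc M) {t : ℝ} (h0 : 0 ≤ t) (h1 : t ≤ 1) :
    Acc (seg M t) := by
  unfold seg
  rcases eq_or_lt_of_le h0 with h2 | h2
  · rw [← h2]
    simp only [sub_zero, Complex.ofReal_one, one_smul, Complex.ofReal_zero, zero_smul, add_zero]
    exact acc_one
  · rcases eq_or_lt_of_le h1 with h3 | h3
    · rw [h3]
      simp only [sub_self, Complex.ofReal_zero, zero_smul, Complex.ofReal_one, one_smul, zero_add]
      exact h
    · exact (acc_one.smul (by linarith)).add (h.smul h2)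

theorem seg_cont (M : Matrix (Fin n) (Fin n) ℂ) (a b : Fin n) :
    Continuous fun t => seg M t a b := by
  unfold seg
  simp only [Matrix.add_apply, Matrix.smul_apply]
  fun_prop

variable {D : Type} [DivisionRing D] [StarRing D] [CharZero D] {ι : Type}

namespace Chi

variable {G : Fam D ι n} {A : Type} [CommGroup A] (C : Chi G A)

/-- the rational points of the segment from `1` to `b`, scaled by `N` -/
def pt (N : ℕ) (b : D) (j : ℕ) : D := ((N - j : ℕ) : D) + (j : D) * b

theorem g_pt {N j : ℕ} (hN : 0 < N) (hj : j ≤ N) (b : D) (i : ι) :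
    G.g i (pt N b j) = ((N : ℝ) : ℂ) • seg (G.g i b) ((j : ℝ) / N) := by
  have hN0 : (N : ℂ) ≠ 0 := by exact_mod_cast hN.ne'
  unfold pt seg
  rw [map_add, map_mul, map_natCast, map_natCast, Nat.cast_sub hj, smul_add, smul_smul,
    smul_smul]
  congr 1
  · have h1 : (((N : ℝ) : ℂ) * ((1 - (j : ℝ) / N : ℝ) : ℂ)) = (N : ℂ) - (j : ℂ) := by
      push_cast
      field_simp
    rw [h1, sub_smul, Nat.cast_smul_eq_nsmul, Nat.cast_smul_eq_nsmul, nsmul_one, nsmul_one]
  · have h1 : (((N : ℝ) : ℂ) * (((j : ℝ) / N : ℝ) : ℂ)) = (j : ℂ) := by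
      push_cast
      field_simp
    rw [h1, Nat.cast_smul_eq_nsmul, nsmul_eq_mul]

theorem pt_mem [Nonempty ι] (hn : 0 < n) {N j : ℕ} (hN : 0 < N) (hj : j ≤ N) {b : D}
    (hb : b ∈ G.X) : pt N b j ∈ G.X := by
  have h1 : ∀ i, Acc (G.g i (pt N b j)) := by
    intro i
    rw [g_pt hN hj]
    apply Acc.smul _ (by exact_mod_cast hN)
    apply acc_seg (hb.2 i) (by positivity)
    rw [div_le_one (by exact_mod_cast hN)]
    exact_mod_cast hj
  refine ⟨?_, h1⟩
  intro h0
  obtain ⟨i⟩ := ‹Nonempty ι›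
  have h2 := (h1 i).isUnit
  rw [h0, map_zero] at h2
  have hne : Nonempty (Fin n) := ⟨⟨0, hn⟩⟩
  exact not_isUnit_zero h2

/-- **Multiplicativity with a factor in the positive cone.** -/
theorem F0_mul_X [Finite ι] (hn : 0 < n) {x b : D} (hx : x ≠ 0) (hb : b ∈ G.X) :
    C.F0 (x * b) = C.F0 x * C.lam b := by
  rcases isEmpty_or_nonempty ι with hι | hι
  · have hall : ∀ z : D, z ≠ 0 → z ∈ G.X := fun z hz => ⟨hz, fun i => (hι.false i).elim⟩
    have hxb := mul_ne_zero hx hb.1
    rw [C.F0_X (hall _ hxb), C.F0_X (hall _ hx), C.lam_mul (hall _ hx) hb (hall _ hxb)]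
  -- the open sets
  let U : {s : D // star s = -s} → Set ℝ := fun s =>
    {t | ∀ i, Acc ((1 - G.g i s) * (G.g i x * seg (G.g i b) t) * (1 - G.g i s))}
  have hopen : ∀ s, IsOpen (U s) := by
    intro s
    rw [isOpen_iff_mem_nhds]
    intro t0 ht0
    have h1 : ∀ᶠ t in nhds t0, ∀ i,
        Acc ((1 - G.g i s) * (G.g i x * seg (G.g i b) t) * (1 - G.g i s)) := by
      rw [Filter.eventually_all]
      intro i
      apply acc_eventually (F := fun t =>
        (1 - G.g i s) * (G.g i x * seg (G.g i b) t) * (1 - G.g i s)) _ (ht0 i)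
      intro a c
      apply Continuous.continuousAt
      simp only [Matrix.mul_apply]
      have h2 := seg_cont (G.g i b)
      fun_prop
    exact h1
  have hcover : Set.Icc (0 : ℝ) 1 ⊆ ⋃ s, U s := by
    intro t ht
    obtain ⟨s, hs, h⟩ := Fam.exists_good (G := G) (Y := fun i => G.g i x * seg (G.g i b) t)
      (fun i => (Fam.isUnit i hx).mul (acc_seg (hb.2 i) ht.1 ht.2).isUnit)
    exact Set.mem_iUnion.mpr ⟨⟨s, hs⟩, h⟩
  obtain ⟨δ, hδ, hball⟩ := lebesgue_number_lemma_of_metric isCompact_Icc hopen hcover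
  obtain ⟨M, hM⟩ := exists_nat_gt (1 / δ)
  have hM0 : 0 < M := by
    have h1 : (0 : ℝ) < M := lt_trans (by positivity) hM
    exact_mod_cast h1
  obtain ⟨N, hNd⟩ : ∃ N, N = M * M := ⟨_, rfl⟩
  have hN0 : 0 < N := by rw [hNd]; positivity
  have hNδ : 1 / (N : ℝ) < δ := by
    have h1 : (M : ℝ) ≤ N := by
      rw [hNd]
      exact_mod_cast Nat.le_mul_of_pos_left M hM0
    rw [div_lt_iff₀ (by exact_mod_cast hN0)]
    rw [div_lt_iff₀ hδ] at hM
    nlinarith
  have key : ∀ j, j ≤ N → C.F0 (x * pt N b j) * (C.lam (pt N b j))⁻¹ =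
      C.F0 (x * pt N b 0) * (C.lam (pt N b 0))⁻¹ := by
    intro j
    induction j with
    | zero => intro _; rfl
    | succ j ih =>
      intro hj
      have hj' : j ≤ N := by omega
      rw [← ih hj']
      have hmem : ((j : ℝ) / N) ∈ Set.Icc (0 : ℝ) 1 := by
        constructor
        · positivity
        · rw [div_le_one (by exact_mod_cast hN0)]
          exact_mod_cast hj'
      obtain ⟨⟨s, hs⟩, hsb⟩ := hball _ hmem
      have h1 : ((j : ℝ) / N) ∈ U ⟨s, hs⟩ := hsb (Metric.mem_ball_self hδ)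
      have h2 : (((j + 1 : ℕ) : ℝ) / N) ∈ U ⟨s, hs⟩ := by
        apply hsb
        rw [Metric.mem_ball, Real.dist_eq]
        have h3 : (((j + 1 : ℕ) : ℝ) / N) - (j : ℝ) / N = 1 / N := by
          push_cast
          field_simp
          ring
        rw [h3, abs_of_pos (by positivity)]
        exact hNδ
      have hrep : ∀ l, l ≤ N → ((l : ℝ) / N) ∈ U ⟨s, hs⟩ →
          star (Fam.cay s) * (x * pt N b l) ∈ G.X := by
        intro l hl hlU
        rw [Fam.cay_mem_iff hs]
        have hp := pt_mem hn hN0 hl hb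
        refine ⟨mul_ne_zero (mul_ne_zero (Fam.skew_ne hs).1 (mul_ne_zero hx hp.1))
          (Fam.skew_ne hs).1, fun i => ?_⟩
        rw [map_mul, map_mul, map_mul, map_sub, map_one, g_pt hN0 hl, mul_smul_comm,
          mul_smul_comm, smul_mul_assoc]
        exact (hlU i).smul (by exact_mod_cast hN0)
      exact (C.step (pt_mem hn hN0 hj' hb) (pt_mem hn hN0 hj hb) (Fam.cay_unit hs)
        (hrep j hj' h1) (hrep (j + 1) hj h2)).symm
  have h1 := key N le_rfl
  have h2 : pt N b 0 = (1 : D) * ((M * M : ℕ) : D) := by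
    unfold pt
    rw [Nat.sub_zero, Nat.cast_zero, zero_mul, add_zero, hNd, one_mul]
  have h3 : pt N b N = b * ((M * M : ℕ) : D) := by
    unfold pt
    rw [Nat.sub_self, Nat.cast_zero, zero_add, hNd, (Nat.cast_commute (M * M) b).eq]
  have hxb := mul_ne_zero hx hb.1
  rw [h2, h3, ← mul_assoc, ← mul_assoc, mul_one, C.F0_mul_nat hM0.ne' hxb,
    C.F0_mul_nat hM0.ne' hx, C.lam_mul_nat hM0.ne' hb, C.lam_mul_nat hM0.ne' Fam.one_mem,
    C.lam_one, inv_one, mul_one] at h1
  rw [← h1, inv_mul_cancel_right]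

/-- **The extension is multiplicative.** -/
theorem F0_mul [Finite ι] (hn : 0 < n) {x y : D} (hx : x ≠ 0) (hy : y ≠ 0) :
    C.F0 (x * y) = C.F0 x * C.F0 y := by
  obtain ⟨t, ht, h⟩ := Fam.exists_rep (G := G) hy
  have ht0 := unit_ne ht
  have h1 : x * y = (x * t) * (star t * y) := by
    rw [mul_assoc, ← mul_assoc t, ht, one_mul]
  rw [h1, C.F0_mul_X hn (mul_ne_zero hx ht0) h, C.F0_mul_unit hx ht, C.F0_eq ht h, val,
    mul_assoc]

/-- The extension inverts under the involution. -/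
theorem F0_star [Finite ι] (hn : 0 < n) {c : D} (hc : c ≠ 0) : C.F0 (star c) = (C.F0 c)⁻¹ := by
  have hc' : star c ≠ 0 := star_ne_zero.mpr hc
  have h1 : C.F0 (c * 1 * star c) = 1 := by
    rw [C.F0_X (Fam.conj_mem hc Fam.one_mem), C.lam_conj hc Fam.one_mem, C.lam_one]
  rw [mul_one, C.F0_mul hn hc hc'] at h1
  exact eq_inv_of_mul_eq_one_right h1

end Chi

end Vale.Agent.P011.ExtF
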