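import Vale.Agent.P011.ExtF.Path

/-!
The extension is trivial on symmetric elements, and its relation to the character of the unitary
group of a line.
-/

open Module Matrix
open scoped ComplexOrder

set_option linter.unusedSectionVars false

namespace Vale.Agent.P011.ExtF

variable {n : ℕ}

theorem pow_lt_eventually {a b : ℝ} (h : |a| < b) {ε : ℝ} (hε : 0 < ε) :
    ∀ᶠ N : ℕ in Filter.atTop, (a ^ N) ^ 2 < ε * (b ^ N) ^ 2 := by
  have hb : 0 < b := lt_of_le_of_lt (abs_nonneg a) h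
  have h1 : |a / b| < 1 := by
    rw [abs_div, abs_of_pos hb, div_lt_one hb]
    exact h
  have h2 : (a / b) ^ 2 < 1 := by
    rw [sq_lt_one_iff_abs_lt_one]
    exact h1
  have h3 := tendsto_pow_atTop_nhds_zero_of_lt_one (sq_nonneg (a / b)) h2
  filter_upwards [h3.eventually_lt_const hε] with N hN
  have h4 : (a ^ N) ^ 2 = ((a / b) ^ 2) ^ N * (b ^ N) ^ 2 := by
    rw [← pow_mul, ← pow_mul, ← pow_mul, div_pow, mul_comm N 2]
    field_simp
  rw [h4]
  have h5 : 0 < (b ^ N) ^ 2 := by positivity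
  exact mul_lt_mul_of_pos_right hN h5

/-- signs for the eigenvalues -/
theorem sign_eventually {l r : ℝ} (hl : l ≠ 0) (hr : r ≠ 0) :
    ∀ᶠ N : ℕ in Filter.atTop, 0 < l * (((1 + l) ^ N) ^ 2 - r ^ 2 * ((1 - l) ^ N) ^ 2) := by
  rcases lt_or_gt_of_ne hl with h | h
  · have h1 : |1 + l| < 1 - l := by
      rw [abs_lt]; constructor <;> linarith
    filter_upwards [pow_lt_eventually h1 (show 0 < r ^ 2 by positivity)] with N hN
    have h2 : ((1 + l) ^ N) ^ 2 - r ^ 2 * ((1 - l) ^ N) ^ 2 < 0 := by linarith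
    exact mul_pos_of_neg_of_neg h h2
  · have h1 : |1 - l| < 1 + l := by
      rw [abs_lt]; constructor <;> linarith
    filter_upwards [pow_lt_eventually h1 (show 0 < (r ^ 2)⁻¹ by positivity)] with N hN
    have h2 : 0 < ((1 + l) ^ N) ^ 2 - r ^ 2 * ((1 - l) ^ N) ^ 2 := by
      have h3 : r ^ 2 * ((1 - l) ^ N) ^ 2 < r ^ 2 * ((r ^ 2)⁻¹ * ((1 + l) ^ N) ^ 2) :=
        mul_lt_mul_of_pos_left hN (by positivity)
      rw [← mul_assoc, mul_inv_cancel₀ (by positivity), one_mul] at h3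
      linarith
    exact mul_pos h h2

/-- conjugates of diagonal matrices by a unitary matrix -/
noncomputable def dg (V : Matrix (Fin n) (Fin n) ℂ) (h : Vᴴ * V = 1) :
    (Fin n → ℂ) →+* Matrix (Fin n) (Fin n) ℂ where
  toFun c := V * Matrix.diagonal c * Vᴴ
  map_one' := by
    change V * Matrix.diagonal (fun _ => (1 : ℂ)) * Vᴴ = 1
    rw [Matrix.diagonal_one, mul_one, mul_eq_one_comm.mp h]
  map_zero' := by
    change V * Matrix.diagonal (fun _ => (0 : ℂ)) * Vᴴ = 0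
    rw [Matrix.diagonal_zero, mul_zero, zero_mul]
  map_add' c d := by
    rw [← add_mul, ← mul_add, Matrix.diagonal_add]
    rfl
  map_mul' c d := by
    calc V * Matrix.diagonal (c * d) * Vᴴ
        = V * (Matrix.diagonal c * Matrix.diagonal d) * Vᴴ := by
          rw [Matrix.diagonal_mul_diagonal]; rfl
      _ = V * Matrix.diagonal c * (Vᴴ * V) * Matrix.diagonal d * Vᴴ := by
          rw [h]; noncomm_ring
      _ = _ := by noncomm_ring

theorem acc_dg {V : Matrix (Fin n) (Fin n) ℂ} (h : Vᴴ * V = 1) {c : Fin n → ℂ}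
    (hc : ∀ i, 0 < (c i).re) : Acc (dg V h c) := by
  have hVu : IsUnit V := ⟨⟨V, Vᴴ, mul_eq_one_comm.mp h, h⟩, rfl⟩
  have h1 : Acc (Matrix.diagonal c) := by
    unfold Acc
    rw [Matrix.diagonal_conjTranspose, Matrix.diagonal_add]
    apply Matrix.PosDef.diagonal
    intro i
    have h2 : c i + star c i = ((2 * (c i).re : ℝ) : ℂ) := by
      rw [Pi.star_apply, Complex.star_def, Complex.add_conj]
    rw [h2]
    have := hc i
    exact_mod_cast (by linarith : 0 < 2 * (c i).re)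
  exact h1.conj hVu

theorem exists_dg {S : Matrix (Fin n) (Fin n) ℂ} (hS : Sᴴ = S) (hu : IsUnit S) :
    ∃ (V : Matrix (Fin n) (Fin n) ℂ) (h : Vᴴ * V = 1) (l : Fin n → ℝ), (∀ i, l i ≠ 0) ∧
      S = dg V h (fun i => (l i : ℂ)) := by
  have hH : S.IsHermitian := hS
  obtain ⟨V, hV⟩ : ∃ V : Matrix (Fin n) (Fin n) ℂ, V = (hH.eigenvectorUnitary : Matrix _ _ ℂ) :=
    ⟨_, rfl⟩
  have hV1 : Vᴴ * V = 1 := by
    rw [hV]; exact Matrix.mem_unitaryGroup_iff'.mp hH.eigenvectorUnitary.2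
  have hspec : S = V * Matrix.diagonal (fun i => (hH.eigenvalues i : ℂ)) * Vᴴ := by
    rw [hV]; exact hH.spectral_theorem
  refine ⟨V, hV1, hH.eigenvalues, ?_, hspec⟩
  intro i h0
  have hdet : S.det ≠ 0 := ((Matrix.isUnit_iff_isUnit_det S).mp hu).ne_zero
  apply hdet
  rw [hH.det_eq_prod_eigenvalues]
  exact Finset.prod_eq_zero (Finset.mem_univ i) (by rw [h0]; rfl)

/-- the hermitian matrix and the sign condition for large exponents -/
theorem acc_pow_eventually {S : Matrix (Fin n) (Fin n) ℂ} (hS : Sᴴ = S) (hu : IsUnit S) {r : ℝ}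
    (hr : r ≠ 0) :
    ∀ᶠ N : ℕ in Filter.atTop,
      Acc (((1 + S) ^ N - ((r : ℂ) * Complex.I) • (1 - S) ^ N) * S *
        ((1 + S) ^ N - ((r : ℂ) * Complex.I) • (1 - S) ^ N)) := by
  obtain ⟨V, hV, l, hl, hSd⟩ := exists_dg hS hu
  have h1 : ∀ᶠ N : ℕ in Filter.atTop, ∀ i,
      0 < l i * (((1 + l i) ^ N) ^ 2 - r ^ 2 * ((1 - l i) ^ N) ^ 2) := by
    rw [Filter.eventually_all]
    exact fun i => sign_eventually (hl i) hr
  filter_upwards [h1] with N hN
  let e : Fin n → ℂ := fun i => (l i : ℂ)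
  have h2 : ((1 + S) ^ N - ((r : ℂ) * Complex.I) • (1 - S) ^ N) * S *
        ((1 + S) ^ N - ((r : ℂ) * Complex.I) • (1 - S) ^ N) =
      dg V hV ((((1 + e) ^ N - (fun _ => (r : ℂ) * Complex.I) * (1 - e) ^ N)) * e *
        ((1 + e) ^ N - (fun _ => (r : ℂ) * Complex.I) * (1 - e) ^ N)) := by
    have h3 : dg V hV (fun _ => (r : ℂ) * Complex.I) =
        ((r : ℂ) * Complex.I) • (1 : Matrix (Fin n) (Fin n) ℂ) := by
      change V * Matrix.diagonal (fun _ => (r : ℂ) * Complex.I) * Vᴴ = _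
      rw [← Matrix.smul_one_eq_diagonal, mul_smul_comm, mul_one, smul_mul_assoc,
        mul_eq_one_comm.mp hV]
    rw [map_mul, map_mul, map_sub, map_pow, map_mul, map_pow, map_add, map_sub, map_one, h3,
      smul_mul_assoc, one_mul, hSd]
  rw [h2]
  apply acc_dg
  intro i
  have h3 := hN i
  have h4 : ((((1 + e) ^ N - (fun _ => (r : ℂ) * Complex.I) * (1 - e) ^ N)) * e *
        ((1 + e) ^ N - (fun _ => (r : ℂ) * Complex.I) * (1 - e) ^ N) : Fin n → ℂ) i =
      ((l i * (((1 + l i) ^ N) ^ 2 - r ^ 2 * ((1 - l i) ^ N) ^ 2) : ℝ) : ℂ) +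
      ((-(2 * r * l i * (1 + l i) ^ N * (1 - l i) ^ N) : ℝ) : ℂ) * Complex.I := by
    simp only [Pi.mul_apply, Pi.sub_apply, Pi.pow_apply, Pi.add_apply, Pi.one_apply, e]
    push_cast
    linear_combination ((l i : ℂ) * (r : ℂ) ^ 2 * ((1 - (l i : ℂ)) ^ N) ^ 2) * Complex.I_sq
  rw [h4, Complex.add_re, Complex.re_ofReal_mul, Complex.I_re, mul_zero, add_zero,
    Complex.ofReal_re]
  exact h3

end Vale.Agent.P011.ExtF
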